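import Vale.Agent.P123.Resolvent

/-!
The Cauchy integral formula for polynomials of an operator along a closed polygon.
-/

namespace Vale.Agent.P123

open scoped InnerProductSpace ComplexConjugate
open Complex Polynomial MeasureTheory intervalIntegral

variable {H : Type*} [NormedAddCommGroup H] [InnerProductSpace ℂ H] [CompleteSpace H]

/-- The integral of `φ(σ) (σ - B)⁻¹ dσ` along the segment from `p` to `q`. -/
noncomputable def edge (B : H →L[ℂ] H) (p q : ℂ) (φ : ℂ → ℂ) : H →L[ℂ] H :=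
  ∫ t in (0 : ℝ)..1, (φ (p + t * (q - p)) * (q - p)) • resolvent B (p + t * (q - p))

/-- The integral of `φ(σ) (σ - B)⁻¹ dσ` along the polygon with vertices `v 0, ..., v M`. -/
noncomputable def cyc (B : H →L[ℂ] H) (v : ℕ → ℂ) (M : ℕ) (φ : ℂ → ℂ) : H →L[ℂ] H :=
  ∑ k ∈ Finset.range M, edge B (v k) (v (k + 1)) φ

lemma Left.cont_edge {B : H →L[ℂ] H} {p q : ℂ} {c : ℝ} (h : Left B p (q - p) c) (hc : 0 < c)
    {φ : ℂ → ℂ} (hφ : Continuous φ) :
    Continuous fun t : ℝ => (φ (p + t * (q - p)) * (q - p)) • resolvent B (p + t * (q - p)) := by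
  have h1 := h.continuous hc
  have h2 : Continuous fun t : ℝ => φ (p + t * (q - p)) * (q - p) := by fun_prop
  exact h2.smul h1

lemma Left.edge_add {B : H →L[ℂ] H} {p q : ℂ} {c : ℝ} (h : Left B p (q - p) c) (hc : 0 < c)
    {φ ψ : ℂ → ℂ} (hφ : Continuous φ) (hψ : Continuous ψ) :
    edge B p q (fun z => φ z + ψ z) = edge B p q φ + edge B p q ψ := by
  unfold edge
  rw [← intervalIntegral.integral_add ((h.cont_edge hc hφ).intervalIntegrable _ _)
    ((h.cont_edge hc hψ).intervalIntegrable _ _)]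
  simp only [add_mul, add_smul]

omit [CompleteSpace H] in
lemma edge_const_mul (B : H →L[ℂ] H) (p q a : ℂ) (φ : ℂ → ℂ) :
    edge B p q (fun z => a * φ z) = a • edge B p q φ := by
  unfold edge
  rw [← intervalIntegral.integral_smul]
  simp only [smul_smul, mul_assoc]

lemma Left.edge_mul_id {B : H →L[ℂ] H} {p q : ℂ} {c : ℝ} (h : Left B p (q - p) c) (hc : 0 < c)
    {φ : ℂ → ℂ} (hφ : Continuous φ) :
    edge B p q (fun z => φ z * z)
      = (∫ t in (0 : ℝ)..1, φ (p + t * (q - p)) * (q - p)) • (1 : H →L[ℂ] H)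
        + B * edge B p q φ := by
  unfold edge
  have hint := (h.cont_edge hc hφ).intervalIntegrable (μ := volume) 0 1
  have h1 := (ContinuousLinearMap.mul ℂ (H →L[ℂ] H) B).intervalIntegral_comp_comm hint
  simp only [ContinuousLinearMap.mul_apply'] at h1
  have h2 : Continuous fun t : ℝ => φ (p + t * (q - p)) * (q - p) := by fun_prop
  have i1 : IntervalIntegrable
      (fun t : ℝ => (φ (p + t * (q - p)) * (q - p)) • (1 : H →L[ℂ] H)) volume 0 1 :=
    (h2.smul continuous_const).intervalIntegrable _ _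
  have i2 : IntervalIntegrable (fun t : ℝ =>
      B * (φ (p + t * (q - p)) * (q - p)) • resolvent B (p + t * (q - p))) volume 0 1 :=
    (continuous_const.mul (h.cont_edge hc hφ)).intervalIntegrable _ _
  rw [← h1, ← intervalIntegral.integral_smul_const, ← intervalIntegral.integral_add i1 i2]
  congr 1
  ext1 t
  beta_reduce
  set σ := p + t * (q - p)
  have h3 := mul_resolvent ((h.shift t).mem_resolventSet hc)
  rw [Algebra.algebraMap_eq_smul_one, sub_mul, smul_mul_assoc, one_mul] at h3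
  have h4 : σ • resolvent B σ = 1 + B * resolvent B σ := by rw [← h3]; abel
  rw [mul_smul_comm, ← smul_add, ← h4, smul_smul]
  congr 1
  ring

lemma integral_monomial (p q a : ℂ) (n : ℕ) :
    ∫ t in (0 : ℝ)..1, a * (p + t * (q - p)) ^ n * (q - p)
      = a / (n + 1) * q ^ (n + 1) - a / (n + 1) * p ^ (n + 1) := by
  have hn : (n + 1 : ℂ) ≠ 0 := by exact_mod_cast Nat.succ_ne_zero n
  have h1 : ∀ t ∈ Set.uIcc (0 : ℝ) 1, HasDerivAt (fun t : ℝ => a / (n + 1) * (p + t * (q - p)) ^ (n + 1))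
      (a * (p + t * (q - p)) ^ n * (q - p)) t := by
    intro t _
    have h2 := ((hasDerivAt_line p (q - p) t).fun_pow (n + 1)).const_mul (a / (n + 1))
    refine h2.congr_deriv ?_
    rw [Nat.add_sub_cancel]
    push_cast
    field_simp
  rw [integral_eq_sub_of_hasDerivAt h1 (Continuous.intervalIntegrable (by fun_prop) _ _)]
  simp

lemma cyc_poly {A : H →L[ℂ] H} {v : ℕ → ℂ} {M : ℕ} {c : ℕ → ℝ} (hv : v M = v 0)
    (hc : ∀ k < M, 0 < c k) (hL : ∀ k < M, Left A (v k) (v (k + 1) - v k) (c k)) (f : ℂ[X]) :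
    cyc A v M (fun z => f.eval z) = aeval A f * cyc A v M (fun _ => 1) := by
  induction f using Polynomial.induction_on with
  | C a =>
    simp only [eval_C, aeval_C, cyc, Algebra.algebraMap_eq_smul_one, smul_mul_assoc, one_mul,
      Finset.smul_sum]
    refine Finset.sum_congr rfl fun k _ => ?_
    rw [← edge_const_mul]
    simp
  | add f g hf hg =>
    rw [map_add, add_mul, ← hf, ← hg]
    simp only [cyc, eval_add, ← Finset.sum_add_distrib]
    refine Finset.sum_congr rfl fun k hk => ?_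
    have hk' := Finset.mem_range.mp hk
    exact (hL k hk').edge_add (hc k hk') f.continuous g.continuous
  | monomial n a ih =>
    have h1 : cyc A v M (fun z => (C a * X ^ (n + 1)).eval z)
        = ∑ k ∈ Finset.range M, ((a / (n + 1) * v (k + 1) ^ (n + 1) - a / (n + 1) * v k ^ (n + 1))
          • (1 : H →L[ℂ] H) + A * edge A (v k) (v (k + 1)) (fun z => (C a * X ^ n).eval z)) := by
      refine Finset.sum_congr rfl fun k hk => ?_
      have hk' := Finset.mem_range.mp hk
      have h2 := (hL k hk').edge_mul_id (hc k hk') (C a * X ^ n).continuous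
      rw [← integral_monomial]
      simp only [eval_mul, eval_C, eval_pow, eval_X] at h2 ⊢
      rw [← h2]
      congr 1
      ext z
      ring
    rw [h1, Finset.sum_add_distrib, ← Finset.sum_smul,
      Finset.sum_range_sub (fun k => a / (n + 1) * v k ^ (n + 1)), hv, sub_self, zero_smul,
      zero_add, ← Finset.mul_sum]
    have h3 : ∑ k ∈ Finset.range M, edge A (v k) (v (k + 1)) (fun z => (C a * X ^ n).eval z)
        = cyc A v M (fun z => (C a * X ^ n).eval z) := rfl
    rw [h3, ih, ← mul_assoc]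
    congr 1
    simp only [map_mul, aeval_C, map_pow, aeval_X]
    rw [← mul_assoc, ← Algebra.commutes, mul_assoc, pow_succ']

lemma edge_second_order {B B' N : H →L[ℂ] H} {p q δ : ℂ} {c : ℝ} (h : Left B p (q - p) c)
    (h' : Left B' p (q - p) c) (hc : 0 < c) (hBB : B = B' + δ • N) (hN : N * B' = B' * N) :
    ‖edge B p q (fun _ => 1) - edge B' p q (fun _ => 1)
        - δ • (N * (resolvent B' p - resolvent B' q))‖
      ≤ ‖δ‖ ^ 2 * (‖q - p‖ * (‖q - p‖ / c) ^ 3 * ‖N‖ ^ 2) := by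
  have hR' := h'.continuous hc
  have h1 : ∫ t in (0 : ℝ)..1, (q - p) • (-resolvent B' (p + t * (q - p)) ^ 2)
      = resolvent B' q - resolvent B' p := by
    rw [integral_eq_sub_of_hasDerivAt (fun t _ => h'.hasDerivAt hc t)
      (Continuous.intervalIntegrable (by fun_prop) _ _)]
    simp
  have hint : IntervalIntegrable (fun t : ℝ => (q - p) • (-resolvent B' (p + t * (q - p)) ^ 2))
      volume 0 1 := Continuous.intervalIntegrable (by fun_prop) _ _
  have h2 := (ContinuousLinearMap.mul ℂ (H →L[ℂ] H) N).intervalIntegral_comp_comm hint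
  simp only [ContinuousLinearMap.mul_apply'] at h2
  have h3 : δ • (N * (resolvent B' p - resolvent B' q))
      = ∫ t in (0 : ℝ)..1, (-δ) • (N * ((q - p) • (-resolvent B' (p + t * (q - p)) ^ 2))) := by
    rw [intervalIntegral.integral_smul, h2, h1, neg_smul, ← smul_neg, ← mul_neg, neg_sub]
  have i1 := (h.cont_edge hc (φ := fun _ => 1) continuous_const).intervalIntegrable
    (μ := volume) 0 1
  have i2 := (h'.cont_edge hc (φ := fun _ => 1) continuous_const).intervalIntegrable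
    (μ := volume) 0 1
  have i3 : IntervalIntegrable
      (fun t : ℝ => (-δ) • (N * ((q - p) • (-resolvent B' (p + t * (q - p)) ^ 2)))) volume 0 1 :=
    Continuous.intervalIntegrable (by fun_prop) _ _
  unfold edge
  rw [h3, ← intervalIntegral.integral_sub i1 i2, ← intervalIntegral.integral_sub (i1.sub i2) i3]
  have h4 := intervalIntegral.norm_integral_le_of_norm_le_const (a := 0) (b := 1)
    (C := ‖δ‖ ^ 2 * (‖q - p‖ * (‖q - p‖ / c) ^ 3 * ‖N‖ ^ 2))
    (f := fun t : ℝ => (1 * (q - p)) • resolvent B (p + t * (q - p))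
      - (1 * (q - p)) • resolvent B' (p + t * (q - p))
      - (-δ) • (N * ((q - p) • (-resolvent B' (p + t * (q - p)) ^ 2)))) ?_
  · simpa using h4
  intro t _
  set σ := p + t * (q - p)
  have h5 := resolvent_second_order ((h.shift t).mem_resolventSet hc)
    ((h'.shift t).mem_resolventSet hc) hBB hN
  have h6 : (1 * (q - p)) • resolvent B σ - (1 * (q - p)) • resolvent B' σ
      - (-δ) • (N * ((q - p) • (-resolvent B' σ ^ 2)))
      = (q - p) • (resolvent B σ - resolvent B' σ - δ • (N * resolvent B' σ ^ 2)) := by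
    simp only [one_mul, mul_smul_comm, mul_neg, smul_neg, neg_smul, neg_neg, smul_sub]
    rw [smul_comm δ]
  rw [h6, h5, norm_smul, norm_smul, norm_pow]
  have n1 := (h.shift t).norm_resolvent hc
  have n2 := (h'.shift t).norm_resolvent hc
  have h7 : ‖resolvent B' σ * N * resolvent B σ * N * resolvent B' σ‖
      ≤ (‖q - p‖ / c) * ‖N‖ * (‖q - p‖ / c) * ‖N‖ * (‖q - p‖ / c) := by
    refine (norm_mul_le _ _).trans ?_
    gcongr
    refine (norm_mul_le _ _).trans ?_
    gcongr
    refine (norm_mul_le _ _).trans ?_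
    gcongr
    refine (norm_mul_le _ _).trans ?_
    gcongr
  calc ‖q - p‖ * (‖δ‖ ^ 2 * ‖resolvent B' σ * N * resolvent B σ * N * resolvent B' σ‖)
      ≤ ‖q - p‖ * (‖δ‖ ^ 2 * ((‖q - p‖ / c) * ‖N‖ * (‖q - p‖ / c) * ‖N‖ * (‖q - p‖ / c))) := by
        gcongr
    _ = _ := by ring

lemma eq_of_sq_bound {E : Type*} [NormedAddCommGroup E] (J : ℝ → E) (C : ℝ)
    (h : ∀ s ∈ Set.Icc (0 : ℝ) 1, ∀ s' ∈ Set.Icc (0 : ℝ) 1, ‖J s - J s'‖ ≤ (s - s') ^ 2 * C) :
    J 1 = J 0 := by
  have hn : ∀ n : ℕ, ‖J 1 - J 0‖ ≤ C / (n + 1) := by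
    intro n
    have hpos : (0 : ℝ) < n + 1 := by positivity
    have h1 : J 1 - J 0 = ∑ i ∈ Finset.range (n + 1),
        (J (((i + 1 : ℕ) : ℝ) / (n + 1)) - J ((i : ℝ) / (n + 1))) := by
      rw [Finset.sum_range_sub (fun i : ℕ => J ((i : ℝ) / (n + 1)))]
      push_cast
      rw [div_self hpos.ne', zero_div]
    rw [h1]
    refine (norm_sum_le _ _).trans ?_
    have h2 : ∀ i ∈ Finset.range (n + 1),
        ‖J (((i + 1 : ℕ) : ℝ) / (n + 1)) - J ((i : ℝ) / (n + 1))‖ ≤ (1 / (n + 1)) ^ 2 * C := by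
      intro i hi
      have hi' : (i : ℝ) + 1 ≤ n + 1 := by exact_mod_cast Finset.mem_range.mp hi
      have hi0 : (0 : ℝ) ≤ i := Nat.cast_nonneg i
      have h3 := h (((i + 1 : ℕ) : ℝ) / (n + 1))
        ⟨by positivity, by rw [div_le_one hpos]; push_cast; linarith⟩ ((i : ℝ) / (n + 1))
        ⟨by positivity, by rw [div_le_one hpos]; linarith⟩
      convert h3 using 3
      push_cast
      ring
    refine (Finset.sum_le_sum h2).trans ?_
    rw [Finset.sum_const, Finset.card_range, nsmul_eq_mul]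
    push_cast
    apply le_of_eq
    field_simp
  have hlim : Filter.Tendsto (fun n : ℕ => C / ((n : ℝ) + 1)) Filter.atTop (nhds 0) :=
    tendsto_const_nhds.div_atTop
      (Filter.tendsto_atTop_add_const_right _ 1 tendsto_natCast_atTop_atTop)
  have h0 : ‖J 1 - J 0‖ ≤ 0 := ge_of_tendsto' hlim hn
  exact sub_eq_zero.mp (norm_le_zero_iff.mp h0)

lemma cyc_hom {A : H →L[ℂ] H} {v : ℕ → ℂ} {M : ℕ} {c : ℕ → ℝ} {z0 : ℂ} (hv : v M = v 0)
    (hc : ∀ k < M, 0 < c k) (hL : ∀ k < M, Left A (v k) (v (k + 1) - v k) (c k))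
    (hz : ∀ k < M, c k ≤ (conj (v (k + 1) - v k) * (z0 - v k)).im) :
    cyc A v M (fun _ => 1) = cyc (z0 • (1 : H →L[ℂ] H)) v M (fun _ => 1) := by
  set N := A - z0 • (1 : H →L[ℂ] H) with hN
  have h := eq_of_sq_bound (fun s => cyc (hom A z0 s) v M (fun _ => 1))
    (∑ k ∈ Finset.range M, ‖v (k + 1) - v k‖ * (‖v (k + 1) - v k‖ / c k) ^ 3 * ‖N‖ ^ 2) ?_
  · simpa [hom] using h
  intro s hs s' hs'
  have hBB : hom A z0 s = hom A z0 s' + ((s - s' : ℝ) : ℂ) • N := by
    simp only [hom, ← hN]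
    push_cast
    rw [sub_smul]
    abel
  have hcomm : N * hom A z0 s' = hom A z0 s' * N := by
    simp only [hom, ← hN, mul_add, add_mul, mul_smul_comm, smul_mul_assoc, mul_one, one_mul]
  have htel : ∑ k ∈ Finset.range M, ((s - s' : ℝ) : ℂ) •
      (N * (resolvent (hom A z0 s') (v k) - resolvent (hom A z0 s') (v (k + 1)))) = 0 := by
    rw [← Finset.smul_sum, ← Finset.mul_sum,
      Finset.sum_range_sub' (fun k => resolvent (hom A z0 s') (v k)), hv, sub_self, mul_zero,
      smul_zero]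
  have h1 : cyc (hom A z0 s) v M (fun _ => 1) - cyc (hom A z0 s') v M (fun _ => 1)
      = ∑ k ∈ Finset.range M, (edge (hom A z0 s) (v k) (v (k + 1)) (fun _ => 1)
        - edge (hom A z0 s') (v k) (v (k + 1)) (fun _ => 1) - ((s - s' : ℝ) : ℂ) •
      (N * (resolvent (hom A z0 s') (v k) - resolvent (hom A z0 s') (v (k + 1))))) := by
    rw [Finset.sum_sub_distrib, Finset.sum_sub_distrib, htel, sub_zero]
    rfl
  rw [h1, Finset.mul_sum]
  refine (norm_sum_le _ _).trans (Finset.sum_le_sum fun k hk => ?_)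
  have hk' := Finset.mem_range.mp hk
  have h2 := edge_second_order ((hL k hk').hom (hz k hk') hs.1 hs.2)
    ((hL k hk').hom (hz k hk') hs'.1 hs'.2) (hc k hk') hBB hcomm
  rwa [norm_real, Real.norm_eq_abs, sq_abs] at h2

omit [CompleteSpace H] in
lemma resolvent_scalar {z0 σ : ℂ} (h : σ - z0 ≠ 0) :
    resolvent (z0 • (1 : H →L[ℂ] H)) σ = (σ - z0)⁻¹ • (1 : H →L[ℂ] H) := by
  have h1 : algebraMap ℂ (H →L[ℂ] H) σ - z0 • 1 = (σ - z0) • (1 : H →L[ℂ] H) := by
    rw [Algebra.algebraMap_eq_smul_one, sub_smul]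
  have e1 : ((σ - z0) • (1 : H →L[ℂ] H)) * ((σ - z0)⁻¹ • (1 : H →L[ℂ] H)) = 1 := by
    rw [smul_mul_smul_comm, mul_inv_cancel₀ h, one_mul, one_smul]
  have e2 : ((σ - z0)⁻¹ • (1 : H →L[ℂ] H)) * ((σ - z0) • (1 : H →L[ℂ] H)) = 1 := by
    rw [smul_mul_smul_comm, inv_mul_cancel₀ h, one_mul, one_smul]
  unfold resolvent
  rw [h1]
  exact Ring.inverse_unit ⟨_, _, e1, e2⟩

lemma edge_scalar {p q z0 : ℂ} {c : ℝ} (hc : 0 < c) (hz : c ≤ (conj (q - p) * (z0 - p)).im) :
    ∃ w : ℂ, edge (z0 • (1 : H →L[ℂ] H)) p q (fun _ => 1) = w • (1 : H →L[ℂ] H) ∧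
      w.re = Real.log ‖q - z0‖ - Real.log ‖p - z0‖ ∧ 0 < w.im := by
  set d := q - p with hd
  set l : ℂ := I * conj d with hl
  have hre : ∀ t : ℝ, c ≤ (l * (p + t * d - z0)).re := by
    intro t
    refine hz.trans (le_of_eq ?_)
    simp only [hl, mul_re, mul_im, sub_re, sub_im, add_re, add_im, conj_re, conj_im, I_re, I_im,
      ofReal_re, ofReal_im]
    ring
  have hne : ∀ t : ℝ, l * (p + t * d - z0) ≠ 0 := by
    intro t h0
    have := hre t
    rw [h0, zero_re] at this
    linarith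
  have hl0 : l ≠ 0 := left_ne_zero_of_mul (hne 0)
  have hσ : ∀ t : ℝ, p + t * d - z0 ≠ 0 := fun t => right_ne_zero_of_mul (hne t)
  have hcont : Continuous fun t : ℝ => d * (p + t * d - z0)⁻¹ :=
    continuous_const.mul (Continuous.inv₀ (by fun_prop) hσ)
  refine ⟨∫ t in (0 : ℝ)..1, d * (p + t * d - z0)⁻¹, ?_, ?_, ?_⟩
  · unfold edge
    rw [← intervalIntegral.integral_smul_const]
    congr 1
    ext1 t
    rw [← hd, resolvent_scalar (hσ t), smul_smul, one_mul]
  · have h1 : ∀ t ∈ Set.uIcc (0 : ℝ) 1, HasDerivAt (fun t : ℝ => Complex.log (l * (p + t * d - z0)))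
        (d * (p + t * d - z0)⁻¹) t := by
      intro t _
      have h2 := (((hasDerivAt_line p d t).sub_const z0).const_mul l).clog_real
        (Or.inl (lt_of_lt_of_le hc (hre t)))
      convert h2 using 1
      have := hσ t
      field_simp
    rw [integral_eq_sub_of_hasDerivAt h1 (hcont.intervalIntegrable _ _)]
    have e1 : p + ((1 : ℝ) : ℂ) * d - z0 = q - z0 := by rw [hd]; push_cast; ring
    have e0 : p + ((0 : ℝ) : ℂ) * d - z0 = p - z0 := by push_cast; ring
    have n1 : q - z0 ≠ 0 := e1 ▸ hσ 1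
    have n0 : p - z0 ≠ 0 := e0 ▸ hσ 0
    rw [e1, e0, sub_re, log_re, log_re, norm_mul l, norm_mul l,
      Real.log_mul (norm_ne_zero_iff.mpr hl0) (norm_ne_zero_iff.mpr n1),
      Real.log_mul (norm_ne_zero_iff.mpr hl0) (norm_ne_zero_iff.mpr n0)]
    ring
  · have h1 := Complex.imCLM.intervalIntegral_comp_comm (hcont.intervalIntegrable (μ := volume) 0 1)
    simp only [imCLM_apply] at h1
    rw [← h1]
    refine intervalIntegral_pos_of_pos
      ((continuous_im.comp hcont).intervalIntegrable _ _) (fun t => ?_) zero_lt_one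
    set w := p + t * d - z0 with hw
    have h2 : (d * w⁻¹).im = (l * w).re / normSq w := by
      simp only [hl, mul_re, mul_im, inv_re, inv_im, conj_re, conj_im, I_re, I_im]
      ring
    rw [h2]
    exact div_pos (lt_of_lt_of_le hc (hre t)) (normSq_pos.mpr (hσ t))

lemma cyc_one {A : H →L[ℂ] H} {v : ℕ → ℂ} {M : ℕ} {c : ℕ → ℝ} {z0 : ℂ} (hM : 0 < M)
    (hv : v M = v 0) (hc : ∀ k < M, 0 < c k) (hL : ∀ k < M, Left A (v k) (v (k + 1) - v k) (c k))
    (hz : ∀ k < M, c k ≤ (conj (v (k + 1) - v k) * (z0 - v k)).im) :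
    ∃ γ : ℝ, 0 < γ ∧ cyc A v M (fun _ => 1) = (I * γ) • (1 : H →L[ℂ] H) := by
  rw [cyc_hom hv hc hL hz]
  have h : ∀ k : ℕ, ∃ w : ℂ, k < M →
      edge (z0 • (1 : H →L[ℂ] H)) (v k) (v (k + 1)) (fun _ => 1) = w • (1 : H →L[ℂ] H) ∧
      w.re = Real.log ‖v (k + 1) - z0‖ - Real.log ‖v k - z0‖ ∧ 0 < w.im := by
    intro k
    by_cases hk : k < M
    · obtain ⟨w, hw⟩ := edge_scalar (H := H) (hc k hk) (hz k hk)
      exact ⟨w, fun _ => hw⟩
    · exact ⟨0, fun h => absurd h hk⟩
  choose w hw using h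
  refine ⟨∑ k ∈ Finset.range M, (w k).im, ?_, ?_⟩
  · exact Finset.sum_pos (fun k hk => (hw k (Finset.mem_range.mp hk)).2.2)
      ⟨0, Finset.mem_range.mpr hM⟩
  · unfold cyc
    rw [Finset.sum_congr rfl fun k hk => (hw k (Finset.mem_range.mp hk)).1, ← Finset.sum_smul]
    congr 1
    apply Complex.ext
    · rw [re_sum, Finset.sum_congr rfl fun k hk => (hw k (Finset.mem_range.mp hk)).2.1,
        Finset.sum_range_sub (fun k => Real.log ‖v k - z0‖), hv]
      simp
    · rw [im_sum, I_mul_im, ofReal_re]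

end Vale.Agent.P123
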