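import Mathlib

/-!
A closed polygon inside a compact convex set `K` that has `W` strictly on the left of every edge.
-/

namespace Vale.Agent.P123

open scoped ComplexConjugate
open Complex Relation

/-- An oriented edge inside `K` with `W` strictly to its left. -/
def GoodEdge (W K : Set ℂ) (p q : ℂ) : Prop :=
  p ∈ K ∧ q ∈ K ∧ ∃ c : ℝ, 0 < c ∧ ∀ z ∈ W, c ≤ (conj (q - p) * (z - p)).im

/-- A highest point of `K` on its vertical line. -/
def IsTop (K : Set ℂ) (U : ℂ) : Prop := U ∈ K ∧ ∀ z ∈ K, z.re = U.re → z.im ≤ U.im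

lemma exists_top {K : Set ℂ} (hK : IsCompact K) (hc : Convex ℝ K) {L R : ℂ} (hL : L ∈ K)
    (hR : R ∈ K) {x : ℝ} (h1 : L.re ≤ x) (h2 : x ≤ R.re) : ∃ U, IsTop K U ∧ U.re = x := by
  have hne : (K ∩ {z : ℂ | z.re = x}).Nonempty := by
    have hconv : Convex ℝ (Complex.reLm '' K) := hc.linear_image Complex.reLm
    have hmem : x ∈ Complex.reLm '' K :=
      hconv.ordConnected.out (x := L.re) (y := R.re) ⟨L, hL, rfl⟩ ⟨R, hR, rfl⟩ ⟨h1, h2⟩
    obtain ⟨z, hz, hzx⟩ := hmem
    exact ⟨z, hz, hzx⟩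
  have hcomp : IsCompact (K ∩ {z : ℂ | z.re = x}) :=
    hK.inter_right (isClosed_eq continuous_re continuous_const)
  obtain ⟨U, ⟨hU1, hU2⟩, hmax⟩ := hcomp.exists_isMaxOn hne continuous_im.continuousOn
  refine ⟨U, ⟨hU1, fun z hz hzr => ?_⟩, hU2⟩
  exact hmax ⟨hz, hzr.trans hU2⟩

lemma chord_good {W K : Set ℂ} (hc : Convex ℝ K) {ε : ℝ} (hε : 0 < ε)
    (hWK : ∀ z ∈ W, Metric.closedBall z ε ⊆ K) {U0 U1 : ℂ} (h0 : IsTop K U0) (h1 : IsTop K U1)
    (hlt : U0.re < U1.re) (hle : U1.re ≤ U0.re + ε / 2) : GoodEdge W K U1 U0 := by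
  set h := U1.re - U0.re with hh
  have hpos : 0 < h := by linarith
  set Φ : ℝ → ℝ → ℝ := fun x y => (U1.re - x) * (U0.im - y) + (x - U0.re) * (U1.im - y) with hΦ
  have hA : ∀ z ∈ K, U1.re ≤ z.re → 0 ≤ Φ z.re z.im := by
    intro z hz hzr
    have hd : 0 < z.re - U0.re := by linarith
    set τ := h / (z.re - U0.re) with hτ
    have hτ0 : 0 < τ := div_pos hpos hd
    have hτ1 : τ ≤ 1 := (div_le_one hd).mpr (by linarith)
    have hτm : τ * (z.re - U0.re) = h := by rw [hτ]; field_simp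
    have hm := hc h0.1 hz (a := 1 - τ) (b := τ) (by linarith) hτ0.le (by ring)
    have h2 := h1.2 _ hm (by simp; linarith)
    simp only [add_im, real_smul, mul_im, ofReal_re, ofReal_im, zero_mul, add_zero] at h2
    have h3 : τ * Φ z.re z.im = h * (U1.im - ((1 - τ) * U0.im + τ * z.im)) := by
      simp only [hΦ]
      have : U1.re = U0.re + τ * (z.re - U0.re) := by linarith
      rw [← hτm, this]
      ring
    have h4 : 0 ≤ τ * Φ z.re z.im := by
      rw [h3]; exact mul_nonneg hpos.le (by linarith)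
    exact (mul_nonneg_iff_of_pos_left hτ0).mp h4
  have hB : ∀ z ∈ K, z.re ≤ U0.re → 0 ≤ Φ z.re z.im := by
    intro z hz hzr
    have hd : 0 < U1.re - z.re := by linarith
    set τ := h / (U1.re - z.re) with hτ
    have hτ0 : 0 < τ := div_pos hpos hd
    have hτ1 : τ ≤ 1 := (div_le_one hd).mpr (by linarith)
    have hτm : τ * (U1.re - z.re) = h := by rw [hτ]; field_simp
    have hm := hc h1.1 hz (a := 1 - τ) (b := τ) (by linarith) hτ0.le (by ring)
    have h2 := h0.2 _ hm (by simp; linarith)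
    simp only [add_im, real_smul, mul_im, ofReal_re, ofReal_im, zero_mul, add_zero] at h2
    have h3 : τ * Φ z.re z.im = h * (U0.im - ((1 - τ) * U1.im + τ * z.im)) := by
      simp only [hΦ]
      have : U0.re = U1.re - τ * (U1.re - z.re) := by linarith
      rw [← hτm, this]
      ring
    have h4 : 0 ≤ τ * Φ z.re z.im := by
      rw [h3]; exact mul_nonneg hpos.le (by linarith)
    exact (mul_nonneg_iff_of_pos_left hτ0).mp h4
  have hball : ∀ z ∈ W, ∀ x : ℝ, |x - z.re| ≤ ε / 2 → (⟨x, z.im + ε / 2⟩ : ℂ) ∈ K := by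
    intro z hz x hx
    apply hWK z hz
    rw [Metric.mem_closedBall, Complex.dist_eq]
    refine (norm_le_abs_re_add_abs_im _).trans ?_
    simp only [sub_re, sub_im, add_sub_cancel_left]
    rw [abs_of_pos (by linarith : 0 < ε / 2)]
    linarith
  refine ⟨h1.1, h0.1, h * (ε / 2), by positivity, fun z hz => ?_⟩
  have hexp : (conj (U0 - U1) * (z - U1)).im = Φ z.re (z.im + ε / 2) + h * (ε / 2) := by
    simp only [hΦ, hh, mul_im, conj_re, conj_im, sub_re, sub_im]
    ring
  rw [hexp]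
  suffices 0 ≤ Φ z.re (z.im + ε / 2) by linarith
  have hz' := hball z hz z.re (by simp; linarith)
  rcases le_total U1.re z.re with hx1 | hx1
  · exact hA _ hz' hx1
  rcases le_total z.re U0.re with hx0 | hx0
  · exact hB _ hz' hx0
  have e0 := h0.2 _ (hball z hz U0.re (by rw [abs_le]; constructor <;> linarith)) rfl
  have e1 := h1.2 _ (hball z hz U1.re (by rw [abs_le]; constructor <;> linarith)) rfl
  simp only at e0 e1
  simp only [hΦ]
  have := mul_nonneg (sub_nonneg.mpr hx1) (sub_nonneg.mpr e0)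
  have := mul_nonneg (sub_nonneg.mpr hx0) (sub_nonneg.mpr e1)
  linarith

lemma chain_tops {W K : Set ℂ} (hK : IsCompact K) (hc : Convex ℝ K) {ε : ℝ} (hε : 0 < ε)
    (hWK : ∀ z ∈ W, Metric.closedBall z ε ⊆ K) (n : ℕ) :
    ∀ U0 U1 : ℂ, IsTop K U0 → IsTop K U1 → U0.re ≤ U1.re → U1.re ≤ U0.re + n * (ε / 2) →
      ReflTransGen (GoodEdge W K) U1 U0 := by
  have hsmall : ∀ U0 U1 : ℂ, IsTop K U0 → IsTop K U1 → U0.re ≤ U1.re → U1.re ≤ U0.re + ε / 2 →
      ReflTransGen (GoodEdge W K) U1 U0 := by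
    intro U0 U1 h0 h1 hle hle2
    rcases hle.eq_or_lt with heq | hlt
    · have : U1 = U0 :=
        Complex.ext heq.symm (le_antisymm (h0.2 _ h1.1 heq.symm) (h1.2 _ h0.1 heq))
      rw [this]
    · exact ReflTransGen.single (chord_good hc hε hWK h0 h1 hlt hle2)
  induction n with
  | zero =>
    intro U0 U1 h0 h1 hle hle2
    exact hsmall U0 U1 h0 h1 hle (by simp at hle2; linarith)
  | succ k ih =>
    intro U0 U1 h0 h1 hle hle2
    rcases le_total U1.re (U0.re + ε / 2) with h | h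
    · exact hsmall U0 U1 h0 h1 hle h
    · obtain ⟨U, hU, hUx⟩ := exists_top hK hc h0.1 h1.1 (x := U0.re + ε / 2) (by linarith) h
      have e1 := ih U U1 hU h1 (by linarith) (by push_cast at hle2; linarith)
      have e2 := hsmall U0 U h0 hU (by linarith) (by linarith)
      exact e1.trans e2

lemma half_path {W K : Set ℂ} (hK : IsCompact K) (hc : Convex ℝ K) {ε : ℝ} (hε : 0 < ε)
    (hWK : ∀ z ∈ W, Metric.closedBall z ε ⊆ K) {L R : ℂ} (hL : L ∈ K) (hR : R ∈ K)
    (hLm : ∀ z ∈ K, L.re ≤ z.re) (hRm : ∀ z ∈ K, z.re ≤ R.re) :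
    ReflTransGen (GoodEdge W K) R L := by
  have hLR : L.re ≤ R.re := hLm R hR
  obtain ⟨U1, hU1, hU1x⟩ := exists_top hK hc hL hR hLR le_rfl
  obtain ⟨U0, hU0, hU0x⟩ := exists_top hK hc hL hR le_rfl hLR
  have hr : ∀ z ∈ W, z.re + ε ≤ R.re := by
    intro z hz
    have : z + (ε : ℂ) ∈ K := hWK z hz (by simp [abs_of_pos hε])
    simpa using hRm _ this
  have hl : ∀ z ∈ W, L.re ≤ z.re - ε := by
    intro z hz
    have : z - (ε : ℂ) ∈ K := hWK z hz (by simp [abs_of_pos hε])
    simpa using hLm _ this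
  have e1 : ReflTransGen (GoodEdge W K) R U1 := by
    rcases (hU1.2 R hR hU1x.symm).eq_or_lt with heq | hlt
    · rw [Complex.ext hU1x.symm heq]
    · refine ReflTransGen.single ⟨hR, hU1.1, (U1.im - R.im) * ε, by nlinarith, fun z hz => ?_⟩
      have := hr z hz
      simp only [mul_im, conj_re, conj_im, sub_re, sub_im, hU1x, sub_self, zero_mul, zero_add]
      nlinarith
  have e3 : ReflTransGen (GoodEdge W K) U0 L := by
    rcases (hU0.2 L hL hU0x.symm).eq_or_lt with heq | hlt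
    · rw [Complex.ext hU0x.symm heq]
    · refine ReflTransGen.single ⟨hU0.1, hL, (U0.im - L.im) * ε, by nlinarith, fun z hz => ?_⟩
      have := hl z hz
      simp only [mul_im, conj_re, conj_im, sub_re, sub_im, hU0x, sub_self, zero_mul, zero_add]
      nlinarith
  obtain ⟨n, hn⟩ := exists_nat_ge ((U1.re - U0.re) / (ε / 2))
  rw [div_le_iff₀ (by linarith)] at hn
  have e2 := chain_tops hK hc hε hWK n U0 U1 hU0 hU1 (by linarith) (by linarith)
  exact (e1.trans e2).trans e3

lemma seq_of_reflTransGen {α : Type*} {r : α → α → Prop} {a b : α} (h : ReflTransGen r a b) :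
    ∃ (M : ℕ) (v : ℕ → α), v 0 = a ∧ v M = b ∧ ∀ k < M, r (v k) (v (k + 1)) := by
  induction h with
  | refl => exact ⟨0, fun _ => a, rfl, rfl, fun k hk => absurd hk (Nat.not_lt_zero k)⟩
  | @tail b c _ hbc ih =>
    obtain ⟨M, v, h0, hM, hv⟩ := ih
    refine ⟨M + 1, fun k => if k ≤ M then v k else c, by simp [h0], by simp, fun k hk => ?_⟩
    rcases Nat.lt_succ_iff_lt_or_eq.mp hk with h | h
    · have h1 : k ≤ M := h.le
      have h2 : k + 1 ≤ M := h
      simp only [h1, h2, if_true]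
      exact hv k h
    · subst h
      simp [hM, hbc]

theorem exists_polygon {W K : Set ℂ} (hK : IsCompact K) (hc : Convex ℝ K) {ε : ℝ} (hε : 0 < ε)
    (hW : W.Nonempty) (hWK : ∀ z ∈ W, Metric.closedBall z ε ⊆ K) :
    ∃ (M : ℕ) (v : ℕ → ℂ), 0 < M ∧ v M = v 0 ∧ ∀ k < M, GoodEdge W K (v k) (v (k + 1)) := by
  obtain ⟨z0, hz0⟩ := hW
  have hKne : K.Nonempty := ⟨z0, hWK z0 hz0 (Metric.mem_closedBall_self hε.le)⟩
  obtain ⟨R, hR, hRm⟩ := hK.exists_isMaxOn hKne continuous_re.continuousOn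
  obtain ⟨L, hL, hLm⟩ := hK.exists_isMinOn hKne continuous_re.continuousOn
  have e1 : ReflTransGen (GoodEdge W K) R L := half_path hK hc hε hWK hL hR hLm hRm
  have e2 : ReflTransGen (GoodEdge (-W) (-K)) (-L) (-R) := by
    refine half_path hK.neg hc.neg hε ?_ (by simpa using hR) (by simpa using hL) ?_ ?_
    · intro z hz w hw
      apply hWK (-z) hz
      rw [Metric.mem_closedBall, dist_neg_neg]
      exact hw
    · intro z hz
      have : (-z).re ≤ R.re := hRm hz
      simp only [neg_re] at this ⊢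
      linarith
    · intro z hz
      have : L.re ≤ (-z).re := hLm hz
      simp only [neg_re] at this ⊢
      linarith
  have e3 : ReflTransGen (GoodEdge W K) (- -L) (- -R) := by
    refine ReflTransGen.lift (p := GoodEdge W K) (fun z : ℂ => -z) ?_ _ _ e2
    rintro p q ⟨hp, hq, c, hc0, hcz⟩
    change GoodEdge W K (-p) (-q)
    refine ⟨hp, hq, c, hc0, fun z hz => ?_⟩
    have := hcz (-z) (by simpa using hz)
    convert this using 2
    simp only [map_sub, map_neg]
    ring
  simp only [neg_neg] at e3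
  have hne : R ≠ L := by
    intro h
    have h1 : z0 + (ε : ℂ) ∈ K := hWK z0 hz0 (by simp [abs_of_pos hε])
    have h2 : z0 - (ε : ℂ) ∈ K := hWK z0 hz0 (by simp [abs_of_pos hε])
    have h3 : (z0 + (ε : ℂ)).re ≤ R.re := hRm h1
    have h4 : L.re ≤ (z0 - (ε : ℂ)).re := hLm h2
    simp only [add_re, sub_re, ofReal_re] at h3 h4
    rw [h] at h3
    linarith
  obtain ⟨M1, v1, h10, h1M, hv1⟩ := seq_of_reflTransGen e1
  obtain ⟨M2, v2, h20, h2M, hv2⟩ := seq_of_reflTransGen e3
  have hM1 : 0 < M1 := by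
    rcases Nat.eq_zero_or_pos M1 with h | h
    · subst h
      exact absurd (h10.symm.trans h1M) hne
    · exact h
  refine ⟨M1 + M2, fun k => if k ≤ M1 then v1 k else v2 (k - M1), by omega, ?_, fun k hk => ?_⟩
  · rcases Nat.eq_zero_or_pos M2 with h | h
    · subst h
      exact absurd (h20.symm.trans h2M).symm hne
    · have : ¬ (M1 + M2 ≤ M1) := by omega
      simp [this, h2M, h10]
  · rcases lt_trichotomy k M1 with h | h | h
    · have h1 : k ≤ M1 := h.le
      have h2 : k + 1 ≤ M1 := h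
      simp only [h1, h2, if_true]
      exact hv1 k h
    · subst h
      have := hv2 0 (by omega)
      simpa [h1M, ← h20] using this
    · have h1 : ¬ k ≤ M1 := by omega
      have h2 : ¬ k + 1 ≤ M1 := by omega
      have h3 : k + 1 - M1 = k - M1 + 1 := by omega
      simp only [h1, h2, if_false, h3]
      exact hv2 _ (by omega)

end Vale.Agent.P123
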