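import Vale.Agent.P123.Perturb
import Vale.Agent.P123.Polygon
import Vale.Agent.P123.Cauchy

/-!
The numerical range is a 2-spectral set.
-/

namespace Vale.Agent.P123

open scoped InnerProductSpace ComplexConjugate
open Complex Polynomial MeasureTheory intervalIntegral

variable {H : Type*} [NormedAddCommGroup H] [InnerProductSpace ℂ H]

lemma frm_symm (G : H →L[ℂ] H) (a b : H) : frm G G a b = frm G G b a := by
  rw [frm, frm, re_inner_comm b (G a), re_inner_comm (G b) a, add_comm]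

lemma frm_conj_smul (G : H →L[ℂ] H) (F : ℂ) (a b : H) :
    frm G G (conj F • a) b = frm G G a (F • b) := by
  simp only [frm, map_smul, inner_smul_left, inner_smul_right]

lemma frm_smul_op (G : H →L[ℂ] H) (F : ℂ) (a b : H) :
    frm (F • G) (conj F • G) a b = frm G G (conj F • a) b := by
  simp only [frm, map_smul, smul_apply, inner_smul_left, inner_smul_right]

lemma frm_expand (G : H →L[ℂ] H) (a b c : H) :
    frm G G (a + b - c) (a + b - c) = frm G G a a + frm G G b b + frm G G c c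
      + 2 * frm G G a b - 2 * frm G G a c - 2 * frm G G b c := by
  have h1 := frm_symm G a b
  have h2 := frm_symm G a c
  have h3 := frm_symm G b c
  simp only [frm, map_add, map_sub, inner_add_left, inner_add_right, inner_sub_left,
    inner_sub_right, add_re, sub_re] at h1 h2 h3 ⊢
  linarith

lemma quad_pointwise (G : H →L[ℂ] H) (hG : ∀ y : H, 0 ≤ (⟪y, G y⟫_ℂ).re) (F : ℂ) (hF : ‖F‖ ≤ 1)
    (n : ℕ) (z p x : H) :
    0 ≤ quad (fun k => F ^ k • G) (fun k => conj F ^ k • G) n z p x := by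
  have hb : ∀ y : H, 0 ≤ frm G G y y := by
    intro y
    have := hG y
    rw [frm, re_inner_comm (G y) y]
    linarith
  have hsc : ∀ (a : ℂ) (y : H), frm G G (a • y) (a • y) = ‖a‖ ^ 2 * frm G G y y := by
    intro a y
    have h1 : conj a * a = ((‖a‖ ^ 2 : ℝ) : ℂ) := by rw [conj_mul']; simp
    have h2 := frm_smul G G 1 (‖a‖ ^ 2) y y
    rw [← conj_conj a, frm_conj_smul, conj_conj, smul_smul, h1]
    simpa using h2
  have hle : ∀ (a : ℂ) (y : H), ‖a‖ ≤ 1 → frm G G (a • y) (a • y) ≤ frm G G y y := by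
    intro a y ha
    rw [hsc]
    have h1 : ‖a‖ ^ 2 ≤ 1 := pow_le_one₀ (norm_nonneg a) ha
    nlinarith [hb y]
  have h1 := hle (conj F ^ n) z (by rw [norm_pow, norm_conj]; exact pow_le_one₀ (norm_nonneg F) hF)
  have h2 := hle F x hF
  have h3 := hb (conj F ^ n • z + p - F • x)
  rw [frm_expand] at h3
  have e1 : frm (F ^ 1 • G) (conj F ^ 1 • G) p x = frm G G p (F • x) := by
    rw [pow_one, pow_one, frm_smul_op, frm_conj_smul]
  have e2 : frm (F ^ n • G) (conj F ^ n • G) z p = frm G G (conj F ^ n • z) p := by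
    rw [← map_pow, frm_smul_op]
  have e3 : frm (F ^ (n + 1) • G) (conj F ^ (n + 1) • G) z x
      = frm G G (conj F ^ n • z) (F • x) := by
    rw [← map_pow, frm_smul_op, map_pow, pow_succ', mul_smul, frm_conj_smul]
  simp only [quad, e1, e2, e3, pow_zero, one_smul]
  linarith

/-- Evaluation of an operator on a pair of vectors, as a real functional. -/
noncomputable def ev (p z : H) : (H →L[ℂ] H) →L[ℝ] ℝ :=
  reCLM.comp (((innerSL ℂ p).comp (ContinuousLinearMap.apply ℂ H z)).restrictScalars ℝ)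

lemma ev_apply (p z : H) (L : H →L[ℂ] H) : ev p z L = (⟪p, L z⟫_ℂ).re := rfl

lemma frm_eq_ev (X Y : H →L[ℂ] H) (z p : H) : frm X Y z p = ev p z Y + ev z p X := by
  rw [frm, ev_apply, ev_apply, re_inner_comm (X p) z]

lemma quad_sum (M : ℕ) (X Y : ℕ → ℕ → H →L[ℂ] H) (n : ℕ) (z p x : H) :
    quad (fun k => ∑ j ∈ Finset.range M, X j k) (fun k => ∑ j ∈ Finset.range M, Y j k) n z p x
      = ∑ j ∈ Finset.range M, quad (X j) (Y j) n z p x := by
  simp only [quad, frm_eq_ev, map_sum, Finset.sum_add_distrib, Finset.sum_sub_distrib,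
    ← Finset.mul_sum]

variable [CompleteSpace H]

lemma quad_integral (X Y : ℕ → ℝ → H →L[ℂ] H) (hX : ∀ k, Continuous (X k))
    (hY : ∀ k, Continuous (Y k)) (n : ℕ) (z p x : H)
    (h : ∀ t ∈ Set.Icc (0 : ℝ) 1, 0 ≤ quad (fun k => X k t) (fun k => Y k t) n z p x) :
    0 ≤ quad (fun k => ∫ t in (0 : ℝ)..1, X k t) (fun k => ∫ t in (0 : ℝ)..1, Y k t) n z p x := by
  have hc : ∀ k (a b : H), Continuous fun t => frm (X k t) (Y k t) a b := by
    intro k a b
    simp only [frm_eq_ev]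
    exact ((ev b a).continuous.comp (hY k)).add ((ev a b).continuous.comp (hX k))
  have hi : ∀ k (a b : H), IntervalIntegrable (fun t => frm (X k t) (Y k t) a b) volume 0 1 :=
    fun k a b => (hc k a b).intervalIntegrable _ _
  have hf : ∀ k (a b : H), frm (∫ t in (0 : ℝ)..1, X k t) (∫ t in (0 : ℝ)..1, Y k t) a b
      = ∫ t in (0 : ℝ)..1, frm (X k t) (Y k t) a b := by
    intro k a b
    simp only [frm_eq_ev]
    rw [← (ev b a).intervalIntegral_comp_comm ((hY k).intervalIntegrable _ _),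
      ← (ev a b).intervalIntegral_comp_comm ((hX k).intervalIntegrable _ _),
      ← intervalIntegral.integral_add]
    · exact ((ev b a).continuous.comp (hY k)).intervalIntegrable _ _
    · exact ((ev a b).continuous.comp (hX k)).intervalIntegrable _ _
  have h1 := intervalIntegral.integral_nonneg (μ := volume) zero_le_one h
  simp only [quad] at h1
  have i1 := (hi 0 z z).add (hi 0 p p)
  have i2 := i1.add (hi 0 x x)
  have i3 := i2.sub ((hi 1 p x).const_mul 2)
  have i4 := i3.add ((hi n z p).const_mul 2)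
  rw [intervalIntegral.integral_sub i4 ((hi (n + 1) z x).const_mul 2),
    intervalIntegral.integral_add i3 ((hi n z p).const_mul 2),
    intervalIntegral.integral_sub i2 ((hi 1 p x).const_mul 2),
    intervalIntegral.integral_add i1 (hi 0 x x),
    intervalIntegral.integral_add (hi 0 z z) (hi 0 p p),
    intervalIntegral.integral_const_mul, intervalIntegral.integral_const_mul,
    intervalIntegral.integral_const_mul] at h1
  simpa only [quad, hf] using h1

lemma edge_norm_le {B : H →L[ℂ] H} {p q : ℂ} {c : ℝ} (h : Left B p (q - p) c) (hc : 0 < c)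
    {φ : ℂ → ℂ} {b : ℝ} (hφ : ∀ t ∈ Set.Icc (0 : ℝ) 1, ‖φ (p + t * (q - p))‖ ≤ b) :
    ‖edge B p q φ‖ ≤ b * ‖q - p‖ * (‖q - p‖ / c) := by
  have hb : 0 ≤ b := (norm_nonneg _).trans (hφ 0 ⟨le_rfl, zero_le_one⟩)
  have h4 := intervalIntegral.norm_integral_le_of_norm_le_const (a := 0) (b := 1)
    (C := b * ‖q - p‖ * (‖q - p‖ / c))
    (f := fun t : ℝ => (φ (p + t * (q - p)) * (q - p)) • resolvent B (p + t * (q - p))) ?_
  · simpa [edge] using h4
  intro t ht
  rw [Set.uIoc_of_le zero_le_one] at ht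
  rw [norm_smul, norm_mul]
  have n1 := (h.shift t).norm_resolvent hc
  have n2 := hφ t ⟨ht.1.le, ht.2⟩
  gcongr

lemma edge_commute {B T : H →L[ℂ] H} {p q : ℂ} {c : ℝ} (h : Left B p (q - p) c) (hc : 0 < c)
    {φ : ℂ → ℂ} (hφ : Continuous φ) (hT : T * B = B * T) :
    T * edge B p q φ = edge B p q φ * T := by
  have hint := (h.cont_edge hc hφ).intervalIntegrable (μ := volume) 0 1
  have h1 := (ContinuousLinearMap.mul ℂ (H →L[ℂ] H) T).intervalIntegral_comp_comm hint
  have h2 := ((ContinuousLinearMap.mul ℂ (H →L[ℂ] H)).flip T).intervalIntegral_comp_comm hint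
  simp only [ContinuousLinearMap.mul_apply', ContinuousLinearMap.flip_apply] at h1 h2
  unfold edge
  rw [← h1, ← h2]
  congr 1
  ext1 t
  rw [mul_smul_comm, smul_mul_assoc, commute_resolvent ((h.shift t).mem_resolventSet hc) hT]

lemma edge_quad {A : H →L[ℂ] H} {u w : ℂ} {c : ℝ} (h : Left A u (w - u) c) (hc : 0 < c)
    {F : ℂ → ℂ} (hF : Continuous F) (hF1 : ∀ t ∈ Set.Icc (0 : ℝ) 1, ‖F (u + t * (w - u))‖ ≤ 1)
    {γ : ℝ} (hγ : 0 < γ) (n : ℕ) (z p x : H) :
    0 ≤ quad (fun k => edge A u w (fun s => -I * ((γ⁻¹ : ℝ) : ℂ) * F s ^ k))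
      (fun k => edge A u w (fun s => -I * ((γ⁻¹ : ℝ) : ℂ) * conj (F s) ^ k)) n z p x := by
  set a : ℂ := -I * ((γ⁻¹ : ℝ) : ℂ) with ha
  have c1 : ∀ k : ℕ, Continuous fun s => a * F s ^ k := fun k => by fun_prop
  have c2 : ∀ k : ℕ, Continuous fun s => a * conj (F s) ^ k := fun k => by fun_prop
  refine quad_integral
    (fun k t => (a * F (u + t * (w - u)) ^ k * (w - u)) • resolvent A (u + t * (w - u)))
    (fun k t => (a * conj (F (u + t * (w - u))) ^ k * (w - u)) • resolvent A (u + t * (w - u)))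
    (fun k => h.cont_edge hc (c1 k)) (fun k => h.cont_edge hc (c2 k)) n z p x fun t ht => ?_
  set σ := u + t * (w - u) with hσ
  set d := w - u with hd
  have hG : ∀ y : H, 0 ≤ (⟪y, ((a * d) • resolvent A σ) y⟫_ℂ).re := by
    intro y
    have h2 := (h.shift t).pos hc y
    have h3 : (a * d) • resolvent A σ = ((γ⁻¹ : ℝ) : ℂ) • ((-I * d) • resolvent A σ) := by
      rw [smul_smul, ha]
      congr 1
      ring
    rw [h3, smul_apply, inner_smul_right, re_ofReal_mul]
    exact mul_nonneg (inv_pos.mpr hγ).le h2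
  have h4 := quad_pointwise _ hG (F σ) (hF1 t ht) n z p x
  have e1 : ∀ k : ℕ, (a * F σ ^ k * d) • resolvent A σ = F σ ^ k • (a * d) • resolvent A σ := by
    intro k
    rw [smul_smul]; congr 1; ring
  have e2 : ∀ k : ℕ, (a * conj (F σ) ^ k * d) • resolvent A σ
      = conj (F σ) ^ k • (a * d) • resolvent A σ := by
    intro k
    rw [smul_smul]; congr 1; ring
  simp only [e1, e2]
  exact h4

theorem core_bound [Nontrivial H] (A : H →L[ℂ] H) {K : Set ℂ} (hK : IsCompact K)
    (hconv : Convex ℝ K) {ε : ℝ} (hε : 0 < ε) (hWK : ∀ z ∈ nr A, Metric.closedBall z ε ⊆ K)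
    (f : ℂ[X]) (hf : ∀ z ∈ K, ‖f.eval z‖ ≤ 1) : ‖aeval A f‖ ≤ 2 := by
  obtain ⟨M, v, hM, hv, hgood⟩ := exists_polygon hK hconv hε (nr_nonempty A) hWK
  have hch : ∀ k : ℕ, ∃ c : ℝ, k < M → 0 < c ∧
      ∀ z ∈ nr A, c ≤ (conj (v (k + 1) - v k) * (z - v k)).im := by
    intro k
    by_cases hk : k < M
    · obtain ⟨-, -, c, hc⟩ := hgood k hk
      exact ⟨c, fun _ => hc⟩
    · exact ⟨0, fun h => absurd h hk⟩
  choose c hcc using hch
  have hc : ∀ k < M, 0 < c k := fun k hk => (hcc k hk).1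
  have hL : ∀ k < M, Left A (v k) (v (k + 1) - v k) (c k) :=
    fun k hk => left_of_nr (hcc k hk).2
  obtain ⟨z0, hz0⟩ := nr_nonempty A
  obtain ⟨γ, hγ, hone⟩ := cyc_one hM hv hc hL (fun k hk => (hcc k hk).2 z0 hz0)
  set a : ℂ := -I * ((γ⁻¹ : ℝ) : ℂ) with ha
  have haγ : a * (I * γ) = 1 := by
    have : (γ : ℂ) ≠ 0 := by exact_mod_cast hγ.ne'
    rw [ha]
    push_cast
    field_simp
    simp
  have hseg : ∀ k < M, ∀ t ∈ Set.Icc (0 : ℝ) 1, ‖f.eval (v k + t * (v (k + 1) - v k))‖ ≤ 1 := by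
    intro k hk t ht
    apply hf
    have := hconv.add_smul_sub_mem (hgood k hk).1 (hgood k hk).2.1 ht
    rwa [real_smul] at this
  set T := aeval A f with hT
  set X : ℕ → ℕ → H →L[ℂ] H :=
    fun j n => edge A (v j) (v (j + 1)) (fun z => a * f.eval z ^ n) with hX
  set Y : ℕ → ℕ → H →L[ℂ] H :=
    fun j n => edge A (v j) (v (j + 1)) (fun z => a * conj (f.eval z) ^ n) with hY
  have hXT : ∀ n, ∑ j ∈ Finset.range M, X j n = T ^ n := by
    intro n
    have h1 := cyc_poly hv hc hL (f ^ n)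
    rw [hone, map_pow, mul_smul_comm, mul_one] at h1
    simp only [hX, edge_const_mul, ← Finset.smul_sum]
    simp only [cyc, eval_pow] at h1
    rw [h1, smul_smul, haγ, one_smul]
  have hTA : T * A = A * T := by
    have h1 : T * A = aeval A (f * Polynomial.X) := by rw [map_mul, aeval_X]
    have h2 : A * T = aeval A (Polynomial.X * f) := by rw [map_mul, aeval_X]
    rw [h1, h2, mul_comm]
  set Bd : ℝ := ∑ j ∈ Finset.range M, ‖a‖ * ‖v (j + 1) - v j‖ * (‖v (j + 1) - v j‖ / c j)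
  refine perturb T (fun n => ∑ j ∈ Finset.range M, Y j n) Bd ?_ ?_ ?_ ?_ ?_
  · have h1 := hXT 0
    simpa [hX, hY] using h1
  · intro n
    rw [Finset.mul_sum, Finset.sum_mul]
    refine Finset.sum_congr rfl fun j hj => ?_
    have hj' := Finset.mem_range.mp hj
    have hfc := f.continuous
    exact edge_commute (hL j hj') (hc j hj') (by fun_prop) hTA
  · intro n
    refine (norm_sum_le _ _).trans (Finset.sum_le_sum fun j hj => ?_)
    have hj' := Finset.mem_range.mp hj
    refine edge_norm_le (hL j hj') (hc j hj') fun t ht => ?_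
    rw [norm_mul, norm_pow, norm_conj]
    exact mul_le_of_le_one_right (norm_nonneg a) (pow_le_one₀ (norm_nonneg _) (hseg j hj' t ht))
  · intro n
    rw [← hXT]
    refine (norm_sum_le _ _).trans (Finset.sum_le_sum fun j hj => ?_)
    have hj' := Finset.mem_range.mp hj
    refine edge_norm_le (hL j hj') (hc j hj') fun t ht => ?_
    rw [norm_mul, norm_pow]
    exact mul_le_of_le_one_right (norm_nonneg a) (pow_le_one₀ (norm_nonneg _) (hseg j hj' t ht))
  · intro n z p x
    have h1 : (fun k => T ^ k) = fun k => ∑ j ∈ Finset.range M, X j k := funext fun k => (hXT k).symm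
    rw [h1, quad_sum]
    refine Finset.sum_nonneg fun j hj => ?_
    have hj' := Finset.mem_range.mp hj
    exact edge_quad (hL j hj') (hc j hj') f.continuous (hseg j hj') hγ n z p x

/-- Crouzeix's inequality with an explicit bound on the numerical range. -/
theorem crouzeix_bound [Nontrivial H] (A : H →L[ℂ] H) (P : ℂ[X]) (m : ℝ)
    (hm : ∀ z ∈ nr A, ‖P.eval z‖ ≤ m) : ‖aeval A P‖ ≤ 2 * m := by
  obtain ⟨z0, hz0⟩ := nr_nonempty A
  have hm0 : 0 ≤ m := (norm_nonneg _).trans (hm z0 hz0)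
  refine le_of_forall_pos_le_add fun η hη => ?_
  set η' := η / 2 with hη'
  have hη'0 : 0 < η' := by positivity
  have hbdd : Bornology.IsBounded (nr A) :=
    (Metric.isBounded_closedBall (x := (0 : ℂ)) (r := ‖A‖)).subset fun z hz => by
      simpa using norm_le_of_mem_nr A hz
  have hU : IsOpen {z : ℂ | ‖P.eval z‖ < m + η'} :=
    isOpen_lt P.continuous.norm continuous_const
  have hcl : closure (nr A) ⊆ {z : ℂ | ‖P.eval z‖ < m + η'} := by
    have h1 : closure (nr A) ⊆ {z : ℂ | ‖P.eval z‖ ≤ m} :=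
      closure_minimal hm (isClosed_le P.continuous.norm continuous_const)
    intro z hz
    have := h1 hz
    simp only [Set.mem_ofPred_eq] at this ⊢
    linarith
  obtain ⟨ε, hε, hsub⟩ := hbdd.isCompact_closure.exists_cthickening_subset_open hU hcl
  rw [Metric.cthickening_closure] at hsub
  have hpos : 0 < m + η' := by linarith
  have hne : ((m + η' : ℝ) : ℂ) ≠ 0 := by exact_mod_cast hpos.ne'
  have h2 := core_bound A (K := Metric.cthickening ε (nr A))
    (Metric.isCompact_of_isClosed_isBounded Metric.isClosed_cthickening hbdd.cthickening)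
    ((convex_nr A).cthickening ε) hε (fun z hz => Metric.closedBall_subset_cthickening hz ε)
    (C (((m + η' : ℝ) : ℂ)⁻¹) * P) (fun z hz => by
      have h3 : ‖P.eval z‖ < m + η' := hsub hz
      rw [eval_mul, eval_C, norm_mul, norm_inv, norm_real, Real.norm_eq_abs, abs_of_pos hpos,
        inv_mul_le_iff₀ hpos]
      linarith)
  rw [map_mul, aeval_C, Algebra.algebraMap_eq_smul_one, smul_mul_assoc, one_mul, norm_smul,
    norm_inv, norm_real, Real.norm_eq_abs, abs_of_pos hpos, inv_mul_le_iff₀ hpos] at h2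
  linarith

omit [CompleteSpace H] in
lemma bddAbove_eval (A : H →L[ℂ] H) (P : ℂ[X]) :
    BddAbove ((fun z : ℂ => ‖P.eval z‖) '' nr A) := by
  have h1 : BddAbove ((fun z : ℂ => ‖P.eval z‖) '' Metric.closedBall (0 : ℂ) ‖A‖) :=
    ((isCompact_closedBall _ _).image P.continuous.norm).bddAbove
  exact h1.mono (Set.image_mono fun z hz => by simpa using norm_le_of_mem_nr A hz)

theorem crouzeix [Nontrivial H] (A : H →L[ℂ] H) (P : ℂ[X]) :
    ‖aeval A P‖ ≤ 2 * sSup ((fun z : ℂ => ‖P.eval z‖) '' nr A) :=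
  crouzeix_bound A P _ fun z hz => le_csSup (bddAbove_eval A P) ⟨z, hz, rfl⟩

/-- The two by two Jordan block shows that no constant below `2` works. -/
theorem lower_bound {ι : Type*} [Fintype ι] [DecidableEq ι] (i j : ι) (hij : i ≠ j) (C : ℝ)
    (h : ∀ (A : EuclideanSpace ℂ ι →L[ℂ] EuclideanSpace ℂ ι) (P : ℂ[X]),
      ‖aeval A P‖ ≤ C * sSup ((fun z : ℂ => ‖P.eval z‖) '' nr A)) : 2 ≤ C := by
  set e1 : EuclideanSpace ℂ ι := EuclideanSpace.single i 1 with he1
  set e2 : EuclideanSpace ℂ ι := EuclideanSpace.single j 1 with he2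
  have n1 : ‖e1‖ = 1 := by simp [he1]
  have n2 : ‖e2‖ = 1 := by simp [he2]
  set A : EuclideanSpace ℂ ι →L[ℂ] EuclideanSpace ℂ ι := (innerSL ℂ e2).smulRight e1 with hA
  have hAx : ∀ x, A x = ⟪e2, x⟫_ℂ • e1 := fun x => rfl
  have hA1 : 1 ≤ ‖A‖ := by
    have h1 := A.le_opNorm e2
    rw [hAx, inner_self_cpx, n2, norm_smul, n1] at h1
    simpa using h1
  have hnr : ∀ z ∈ nr A, ‖z‖ ≤ 1 / 2 := by
    rintro z ⟨x, hx, rfl⟩
    rw [hAx, inner_smul_right, norm_mul, norm_inner_symm x e1, he1, he2,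
      EuclideanSpace.inner_single_left, EuclideanSpace.inner_single_left]
    simp only [map_one, one_mul]
    have h2 : ‖x i‖ ^ 2 + ‖x j‖ ^ 2 ≤ 1 := by
      have h3 := EuclideanSpace.norm_sq_eq x
      rw [hx] at h3
      have h4 : ∑ k ∈ ({i, j} : Finset ι), ‖x k‖ ^ 2 ≤ ∑ k, ‖x k‖ ^ 2 :=
        Finset.sum_le_sum_of_subset_of_nonneg (Finset.subset_univ _) fun k _ _ => by positivity
      rw [Finset.sum_pair hij] at h4
      linarith
    nlinarith [sq_nonneg (‖x i‖ - ‖x j‖)]
  have hs : sSup ((fun z : ℂ => ‖(X : ℂ[X]).eval z‖) '' nr A) ≤ 1 / 2 := by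
    refine Real.sSup_le ?_ (by norm_num)
    rintro _ ⟨z, hz, rfl⟩
    simpa using hnr z hz
  have hs0 : 0 ≤ sSup ((fun z : ℂ => ‖(X : ℂ[X]).eval z‖) '' nr A) := by
    refine Real.sSup_nonneg ?_
    rintro _ ⟨z, hz, rfl⟩
    exact norm_nonneg _
  have h5 := h A X
  rw [aeval_X] at h5
  by_contra hcon
  push Not at hcon
  set S := sSup ((fun z : ℂ => ‖(X : ℂ[X]).eval z‖) '' nr A)
  rcases hs0.eq_or_lt with h0 | h0
  · rw [← h0, mul_zero] at h5
    linarith
  · have := mul_lt_mul_of_pos_right hcon h0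
    linarith

universe u

theorem crouzeix_isLeast :
    IsLeast {C : ℝ | ∀ (H : Type u) [NormedAddCommGroup H] [InnerProductSpace ℂ H]
      [CompleteSpace H] [Nontrivial H] (A : H →L[ℂ] H) (P : Polynomial ℂ),
      ‖Polynomial.aeval A P‖ ≤ C * sSup ((fun z : ℂ => ‖Polynomial.eval z P‖) ''
        {z : ℂ | ∃ x : H, ‖x‖ = 1 ∧ inner ℂ x (A x) = z})} 2 := by
  constructor
  · intro H _ _ _ _ A P
    exact crouzeix A P
  · intro C hC
    exact lower_bound (ι := ULift.{u} (Fin 2)) ⟨0⟩ ⟨1⟩ (by decide) C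
      fun A P => hC (EuclideanSpace ℂ (ULift.{u} (Fin 2))) A P

end Vale.Agent.P123
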