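import Mathlib

/-!
The perturbation lemma for 2-dilations, in the form of a quadratic inequality.
-/

namespace Vale.Agent.P123

open scoped InnerProductSpace
open Complex

variable {H : Type*} [NormedAddCommGroup H] [InnerProductSpace ℂ H]

/-- The real form attached to a pair of operators. -/
noncomputable def frm (X Y : H →L[ℂ] H) (z p : H) : ℝ :=
  (⟪p, Y z⟫_ℂ).re + (⟪X p, z⟫_ℂ).re

/-- The quadratic expression that is nonnegative for moments of a positive kernel. -/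
noncomputable def quad (X Y : ℕ → H →L[ℂ] H) (n : ℕ) (z p x : H) : ℝ :=
  frm (X 0) (Y 0) z z + frm (X 0) (Y 0) p p + frm (X 0) (Y 0) x x
    - 2 * frm (X 1) (Y 1) p x + 2 * frm (X n) (Y n) z p - 2 * frm (X (n + 1)) (Y (n + 1)) z x

lemma frm_smul (X Y : H →L[ℂ] H) (a b : ℝ) (z p : H) :
    frm X Y ((a : ℂ) • z) ((b : ℂ) • p) = a * b * frm X Y z p := by
  simp only [frm, map_smul, inner_smul_left, inner_smul_right, conj_ofReal, re_ofReal_mul]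
  ring

lemma frm_one (z : H) : frm (1 : H →L[ℂ] H) 1 z z = 2 * ‖z‖ ^ 2 := by
  have h : (⟪z, z⟫_ℂ).re = ‖z‖ ^ 2 := by
    simpa using inner_self_eq_norm_sq (𝕜 := ℂ) z
  simp only [frm, one_apply_eq_self, h]
  ring

lemma re_inner_self (z : H) : (⟪z, z⟫_ℂ).re = ‖z‖ ^ 2 := by
  simpa using inner_self_eq_norm_sq (𝕜 := ℂ) z

lemma re_inner_comm (z w : H) : (⟪z, w⟫_ℂ).re = (⟪w, z⟫_ℂ).re := by
  rw [← inner_conj_symm, conj_re]

lemma abs_re_inner_le (z w : H) : |(⟪z, w⟫_ℂ).re| ≤ ‖z‖ * ‖w‖ :=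
  (abs_re_le_norm _).trans (norm_inner_le_norm z w)

/-- A bounded real sequence with `m (n+1) ≤ κ m n + r` satisfies `m 1 ≥ - r / (κ - 1)`. -/
lemma seq_lower (m : ℕ → ℝ) (κ r B : ℝ) (hκ : 2 ≤ κ) (hB : ∀ n, -B ≤ m n)
    (hrec : ∀ n, m (n + 1) ≤ κ * m n + r) : -r ≤ (κ - 1) * m 1 := by
  by_contra hcon
  push Not at hcon
  have hκ1 : 0 < κ - 1 := by linarith
  set a : ℕ → ℝ := fun n => (κ - 1) * m n + r with ha
  have ha1 : a 1 < 0 := by simp only [ha]; linarith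
  have harec : ∀ n, a (n + 1) ≤ κ * a n := by
    intro n
    have := mul_le_mul_of_nonneg_left (hrec n) hκ1.le
    simp only [ha]
    nlinarith
  have hind : ∀ n : ℕ, a (n + 1) ≤ (n + 1 : ℝ) * a 1 := by
    intro n
    induction n with
    | zero => simp
    | succ k ih =>
      have h1 := harec (k + 1)
      have hk : (0 : ℝ) ≤ k := Nat.cast_nonneg k
      have h2 : a (k + 1) ≤ a 1 := by nlinarith
      have h3 : κ * a (k + 1) ≤ 2 * a (k + 1) := by nlinarith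
      push_cast
      nlinarith
  obtain ⟨n, hn⟩ := exists_nat_gt (((κ - 1) * B - r) / (-a 1))
  have hpos : 0 < -a 1 := by linarith
  rw [div_lt_iff₀ hpos] at hn
  have h4 := hind n
  have h5 := mul_le_mul_of_nonneg_left (hB (n + 1)) hκ1.le
  have h6 : a (n + 1) = (κ - 1) * m (n + 1) + r := rfl
  nlinarith

variable [CompleteSpace H]

lemma perturb_vec (T : H →L[ℂ] H) (Y : ℕ → H →L[ℂ] H) (M : ℝ)
    (hY0 : Y 0 = 1) (hcomm : ∀ n, T * Y n = Y n * T) (hYb : ∀ n, ‖Y n‖ ≤ M)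
    (hTb : ∀ n, ‖T ^ n‖ ≤ M)
    (hq : ∀ n z p x, 0 ≤ quad (fun k => T ^ k) Y n z p x)
    (hκ : 2 ≤ ‖T‖) (x : H) (hx : ‖x‖ = 1) :
    ‖T x‖ ^ 2 ≤ 2 * ‖T‖ +
      ‖ContinuousLinearMap.adjoint T (T x) - ((‖T‖ ^ 2 : ℝ) : ℂ) • x‖ * (M * M) := by
  set κ := ‖T‖ with hκdef
  set e := ContinuousLinearMap.adjoint T (T x) - ((κ ^ 2 : ℝ) : ℂ) • x with he
  set m : ℕ → ℝ := fun n => (⟪x, Y n ((T ^ n) x)⟫_ℂ).re with hm
  have hM : 0 ≤ M := (norm_nonneg _).trans (hYb 0)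
  have hvec : ∀ n, ‖Y n ((T ^ n) x)‖ ≤ M * M := by
    intro n
    calc ‖Y n ((T ^ n) x)‖ ≤ ‖Y n‖ * ‖(T ^ n) x‖ := (Y n).le_opNorm _
      _ ≤ ‖Y n‖ * (‖T ^ n‖ * ‖x‖) := by gcongr; exact (T ^ n).le_opNorm _
      _ ≤ M * (M * 1) := by rw [hx]; gcongr; exacts [hYb n, hTb n]
      _ = M * M := by ring
  have hmB : ∀ n, -(M * M) ≤ m n := by
    intro n
    have h1 := abs_re_inner_le x (Y n ((T ^ n) x))
    rw [hx, one_mul] at h1
    have := neg_abs_le (m n)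
    have h2 := hvec n
    simp only [hm] at this ⊢
    linarith
  set ε := ‖e‖ * (M * M) with hε
  have hε0 : 0 ≤ ε := by positivity
  have hTx : ‖T x‖ ≤ κ := by
    have := T.le_opNorm x
    rwa [hx, mul_one] at this
  -- values of the form
  have hA : ∀ n, frm (T ^ (n + 1)) (Y (n + 1)) ((T ^ (n + 1)) x) x
      = m (n + 1) + ‖(T ^ (n + 1)) x‖ ^ 2 := by
    intro n
    simp only [frm, hm, re_inner_self]
  have hB : ∀ n, frm (T ^ n) (Y n) ((T ^ (n + 1)) x) (T x)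
      ≤ κ ^ 2 * m n + ε + ‖(T ^ (n + 1)) x‖ ^ 2 := by
    intro n
    have h1 : (T ^ n) (T x) = (T ^ (n + 1)) x := by
      rw [pow_succ]; rfl
    have h2 : Y n ((T ^ (n + 1)) x) = T (Y n ((T ^ n) x)) := by
      have : (T ^ (n + 1)) x = T ((T ^ n) x) := by rw [pow_succ']; rfl
      rw [this]
      have h3 := congrArg (fun L : H →L[ℂ] H => L ((T ^ n) x)) (hcomm n)
      simpa using h3.symm
    have h3 : ContinuousLinearMap.adjoint T (T x) = e + ((κ ^ 2 : ℝ) : ℂ) • x := by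
      simp [he]
    have h4 : ⟪T x, T (Y n ((T ^ n) x))⟫_ℂ
        = ⟪e, Y n ((T ^ n) x)⟫_ℂ + ((κ ^ 2 : ℝ) : ℂ) * ⟪x, Y n ((T ^ n) x)⟫_ℂ := by
      rw [← ContinuousLinearMap.adjoint_inner_left, h3, inner_add_left, inner_smul_left,
        conj_ofReal]
    have h5 : (⟪e, Y n ((T ^ n) x)⟫_ℂ).re ≤ ε := by
      have := abs_re_inner_le e (Y n ((T ^ n) x))
      have h6 := le_abs_self (⟪e, Y n ((T ^ n) x)⟫_ℂ).re
      have h7 : ‖e‖ * ‖Y n ((T ^ n) x)‖ ≤ ‖e‖ * (M * M) := by gcongr; exact hvec n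
      linarith
    simp only [frm, h1, h2, h4, re_inner_self, add_re, re_ofReal_mul]
    simp only [hm]
    linarith
  have hC : frm (T ^ 1) (Y 1) (T x) x = m 1 + ‖T x‖ ^ 2 := by
    have := hA 0
    simpa using this
  set D := ‖T x‖ ^ 2 + κ ^ 2 - κ * (m 1 + ‖T x‖ ^ 2) with hD
  have key : ∀ (c : ℝ) n, 0 ≤ c ^ 2 * ‖(T ^ (n + 1)) x‖ ^ 2 + D
      + c * frm (T ^ n) (Y n) ((T ^ (n + 1)) x) (T x)
      - c * κ * (m (n + 1) + ‖(T ^ (n + 1)) x‖ ^ 2) := by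
    intro c n
    have h := hq n ((c : ℂ) • (T ^ (n + 1)) x) (((1 : ℝ) : ℂ) • T x) ((κ : ℂ) • x)
    simp only [quad, frm_smul, pow_zero, hY0, frm_one, hA, hC, hx] at h
    simp only [hD]
    linarith
  have hD0 : 0 ≤ D := by simpa using key 0 0
  have hκ0 : 0 < κ := by linarith
  have hκ1 : 0 < κ - 1 := by linarith
  have hrec : ∀ n, m (n + 1) ≤ κ * m n + (D / (κ * (κ - 1)) + ε / κ) := by
    intro n
    have h1 := key (κ - 1) n
    have h2 := mul_le_mul_of_nonneg_left (hB n) hκ1.le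
    have h3 : κ * (κ - 1) * m (n + 1) ≤ D + (κ - 1) * (κ ^ 2 * m n + ε) := by nlinarith
    have h4 : κ * m n + (D / (κ * (κ - 1)) + ε / κ)
        = (D + (κ - 1) * (κ ^ 2 * m n + ε)) / (κ * (κ - 1)) := by
      field_simp
      ring
    rw [h4, le_div_iff₀ (by positivity)]
    linarith
  have hlow := seq_lower m κ _ (M * M) hκ hmB hrec
  -- so `κ * m 1 ≥ - D - ε`
  have h5 : -(D + ε) ≤ κ * m 1 := by
    have h6 : κ * (D / (κ * (κ - 1)) + ε / κ) = D / (κ - 1) + ε := by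
      field_simp
    have h7 : D / (κ - 1) ≤ D := div_le_self hD0 (by linarith)
    have h8 : -(D + ε) ≤ (κ - 1) * (κ * m 1) := by nlinarith
    by_contra hcon
    push Not at hcon
    have h9 : κ * m 1 < 0 := by linarith
    nlinarith
  have h10 : ‖T x‖ ^ 2 ≤ κ ^ 2 := by gcongr
  have h11 : κ * ‖T x‖ ^ 2 ≤ κ * (2 * κ) + ε := by
    simp only [hD] at h5
    nlinarith
  have h12 : κ * ‖T x‖ ^ 2 ≤ κ * (2 * κ + ε) := by nlinarith
  exact le_of_mul_le_mul_left h12 hκ0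

/-- The perturbation lemma. -/
theorem perturb (T : H →L[ℂ] H) (Y : ℕ → H →L[ℂ] H) (M : ℝ)
    (hY0 : Y 0 = 1) (hcomm : ∀ n, T * Y n = Y n * T) (hYb : ∀ n, ‖Y n‖ ≤ M)
    (hTb : ∀ n, ‖T ^ n‖ ≤ M)
    (hq : ∀ n z p x, 0 ≤ quad (fun k => T ^ k) Y n z p x) : ‖T‖ ≤ 2 := by
  by_contra hcon
  push Not at hcon
  set κ := ‖T‖ with hκdef
  have hκ0 : 0 < κ := by linarith
  -- the function whose nonnegativity near `κ` gives the contradiction
  set g : ℝ → ℝ := fun s => s ^ 2 - 2 * κ - κ * Real.sqrt (κ ^ 2 - s ^ 2) * (M * M) with hg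
  have hgc : Continuous g := by
    simp only [hg]
    fun_prop
  have hgκ : 0 < g κ := by
    simp only [hg, sub_self, Real.sqrt_zero, mul_zero, zero_mul, sub_zero]
    nlinarith
  have hopen : IsOpen {s | 0 < g s} := isOpen_lt continuous_const hgc
  obtain ⟨δ, hδ, hball⟩ := Metric.isOpen_iff.mp hopen κ hgκ
  have hlt : max (κ - δ) 0 < ‖T‖ := max_lt (by linarith) hκ0
  obtain ⟨y, hy1, hy2⟩ := T.exists_lt_apply_of_lt_opNorm hlt
  have hy0 : y ≠ 0 := by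
    rintro rfl
    simp at hy2
  have hyn : 0 < ‖y‖ := norm_pos_iff.mpr hy0
  set x : H := ((‖y‖⁻¹ : ℝ) : ℂ) • y with hxdef
  have hx : ‖x‖ = 1 := by
    rw [hxdef, norm_smul, norm_real, Real.norm_eq_abs, abs_of_pos (inv_pos.mpr hyn)]
    field_simp
  have hTx1 : ‖T y‖ ≤ ‖T x‖ := by
    rw [hxdef, map_smul, norm_smul, norm_real, Real.norm_eq_abs, abs_of_pos (inv_pos.mpr hyn)]
    have : 1 ≤ ‖y‖⁻¹ := (one_le_inv₀ hyn).mpr hy1.le
    nlinarith [norm_nonneg (T y)]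
  have hTx : ‖T x‖ ≤ κ := by
    have := T.le_opNorm x
    rwa [hx, mul_one] at this
  have hmem : ‖T x‖ ∈ Metric.ball κ δ := by
    rw [Metric.mem_ball, Real.dist_eq, abs_lt]
    have := le_max_left (κ - δ) 0
    constructor <;> linarith
  have hpos : 0 < g ‖T x‖ := hball hmem
  have hv := perturb_vec T Y M hY0 hcomm hYb hTb hq hcon.le x hx
  set e := ContinuousLinearMap.adjoint T (T x) - ((κ ^ 2 : ℝ) : ℂ) • x with he
  have hM : 0 ≤ M := (norm_nonneg _).trans (hYb 0)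
  have he2 : ‖e‖ ^ 2 ≤ κ ^ 2 * (κ ^ 2 - ‖T x‖ ^ 2) := by
    have h1 : ‖ContinuousLinearMap.adjoint T (T x)‖ ≤ κ * ‖T x‖ := by
      have := (ContinuousLinearMap.adjoint T).le_opNorm (T x)
      rwa [LinearIsometryEquiv.norm_map] at this
    have h2 : (⟪ContinuousLinearMap.adjoint T (T x), ((κ ^ 2 : ℝ) : ℂ) • x⟫_ℂ).re
        = κ ^ 2 * ‖T x‖ ^ 2 := by
      rw [inner_smul_right, ContinuousLinearMap.adjoint_inner_left, re_ofReal_mul, re_inner_self]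
    have h3 := norm_sub_sq (𝕜 := ℂ) (ContinuousLinearMap.adjoint T (T x))
      (((κ ^ 2 : ℝ) : ℂ) • x)
    have h4 : ‖((κ ^ 2 : ℝ) : ℂ) • x‖ = κ ^ 2 := by
      rw [norm_smul, hx, norm_real, Real.norm_eq_abs, abs_of_nonneg (by positivity), mul_one]
    have h5 : RCLike.re ⟪ContinuousLinearMap.adjoint T (T x), ((κ ^ 2 : ℝ) : ℂ) • x⟫_ℂ
        = κ ^ 2 * ‖T x‖ ^ 2 := h2
    rw [h5, h4] at h3
    have h6 : ‖ContinuousLinearMap.adjoint T (T x)‖ ^ 2 ≤ (κ * ‖T x‖) ^ 2 := by gcongr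
    rw [he, h3]
    nlinarith
  have he3 : ‖e‖ ≤ κ * Real.sqrt (κ ^ 2 - ‖T x‖ ^ 2) := by
    have h1 : 0 ≤ κ ^ 2 - ‖T x‖ ^ 2 := by
      have : ‖T x‖ ^ 2 ≤ κ ^ 2 := by gcongr
      linarith
    have h2 : (κ * Real.sqrt (κ ^ 2 - ‖T x‖ ^ 2)) ^ 2 = κ ^ 2 * (κ ^ 2 - ‖T x‖ ^ 2) := by
      rw [mul_pow, Real.sq_sqrt h1]
    exact abs_le_of_sq_le_sq' (by rw [h2]; exact he2) (by positivity) |>.2
  have h7 : ‖e‖ * (M * M) ≤ κ * Real.sqrt (κ ^ 2 - ‖T x‖ ^ 2) * (M * M) := by gcongr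
  simp only [hg] at hpos
  linarith

end Vale.Agent.P123
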