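import Vale.Agent.P123.Toeplitz

/-!
Resolvents along a line that has the numerical range strictly on its left.
-/

namespace Vale.Agent.P123

open scoped InnerProductSpace ComplexConjugate
open Complex

variable {H : Type*} [NormedAddCommGroup H] [InnerProductSpace ℂ H]

/-- The numerical range of `B` lies to the left of the line through `p` with direction `d`. -/
def Left (B : H →L[ℂ] H) (p d : ℂ) (c : ℝ) : Prop :=
  ∀ x : H, c * ‖x‖ ^ 2 ≤ (conj d * (⟪x, B x⟫_ℂ - p * ((‖x‖ ^ 2 : ℝ) : ℂ))).im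

lemma left_of_nr {A : H →L[ℂ] H} {p d : ℂ} {c : ℝ}
    (h : ∀ z ∈ nr A, c ≤ (conj d * (z - p)).im) : Left A p d c := by
  intro x
  by_cases hx : x = 0
  · simp [hx]
  have h1 := h _ (mem_nr_of_ne_zero A x hx)
  have hn : 0 < ‖x‖ ^ 2 := pow_pos (norm_pos_iff.mpr hx) 2
  have hn' : ((‖x‖ ^ 2 : ℝ) : ℂ) ≠ 0 := by exact_mod_cast hn.ne'
  have h2 : conj d * (⟪x, A x⟫_ℂ - p * ((‖x‖ ^ 2 : ℝ) : ℂ))
      = ((‖x‖ ^ 2 : ℝ) : ℂ) * (conj d * (⟪x, A x⟫_ℂ / ((‖x‖ ^ 2 : ℝ) : ℂ) - p)) := by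
    field_simp
  rw [h2, im_ofReal_mul, mul_comm c]
  gcongr

lemma Left.shift {B : H →L[ℂ] H} {p d : ℂ} {c : ℝ} (h : Left B p d c) (t : ℝ) :
    Left B (p + t * d) d c := by
  intro x
  have h1 := h x
  have h2 : (conj d * (⟪x, B x⟫_ℂ - (p + t * d) * ((‖x‖ ^ 2 : ℝ) : ℂ))).im
      = (conj d * (⟪x, B x⟫_ℂ - p * ((‖x‖ ^ 2 : ℝ) : ℂ))).im := by
    simp only [mul_im, sub_re, sub_im, mul_re, add_re, add_im, conj_re, conj_im, ofReal_re,
      ofReal_im]
    ring
  rwa [h2]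

/-- The straight homotopy from the scalar `z0` to `A`. -/
noncomputable def hom (A : H →L[ℂ] H) (z0 : ℂ) (s : ℝ) : H →L[ℂ] H :=
  z0 • (1 : H →L[ℂ] H) + (s : ℂ) • (A - z0 • 1)

lemma Left.hom {A : H →L[ℂ] H} {p d z0 : ℂ} {c : ℝ} (h : Left A p d c)
    (hz : c ≤ (conj d * (z0 - p)).im) {s : ℝ} (hs0 : 0 ≤ s) (hs1 : s ≤ 1) :
    Left (hom A z0 s) p d c := by
  intro x
  have h1 := h x
  have h2 : conj d * (⟪x, Vale.Agent.P123.hom A z0 s x⟫_ℂ - p * ((‖x‖ ^ 2 : ℝ) : ℂ))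
      = (s : ℂ) * (conj d * (⟪x, A x⟫_ℂ - p * ((‖x‖ ^ 2 : ℝ) : ℂ)))
        + (((1 - s) * ‖x‖ ^ 2 : ℝ) : ℂ) * (conj d * (z0 - p)) := by
    simp only [Vale.Agent.P123.hom, add_apply, smul_apply,
      sub_apply, one_apply_eq_self, inner_add_right, inner_smul_right,
      inner_sub_right, inner_self_cpx]
    push_cast
    ring
  rw [h2, add_im, im_ofReal_mul, im_ofReal_mul]
  have h3 : 0 ≤ (1 - s) * ‖x‖ ^ 2 := mul_nonneg (by linarith) (by positivity)
  have h4 := mul_le_mul_of_nonneg_left h1 hs0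
  have h5 := mul_le_mul_of_nonneg_left hz h3
  linarith

lemma inner_alg_sub (B : H →L[ℂ] H) (σ : ℂ) (y : H) :
    ⟪y, (algebraMap ℂ (H →L[ℂ] H) σ - B) y⟫_ℂ = σ * ((‖y‖ ^ 2 : ℝ) : ℂ) - ⟪y, B y⟫_ℂ := by
  simp only [Algebra.algebraMap_eq_smul_one, sub_apply,
    smul_apply, one_apply_eq_self, inner_sub_right, inner_smul_right,
    inner_self_cpx]

lemma Left.coercive {B : H →L[ℂ] H} {σ d : ℂ} {c : ℝ} (h : Left B σ d c) (y : H) :
    c * ‖y‖ ^ 2 ≤ ‖d‖ * ‖⟪y, (algebraMap ℂ (H →L[ℂ] H) σ - B) y⟫_ℂ‖ := by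
  refine (h y).trans ((le_abs_self _).trans ((abs_im_le_norm _).trans ?_))
  rw [norm_mul, norm_conj, inner_alg_sub, norm_sub_rev]

variable [CompleteSpace H]

lemma Left.mem_resolventSet {B : H →L[ℂ] H} {σ d : ℂ} {c : ℝ} (h : Left B σ d c) (hc : 0 < c) :
    σ ∈ resolventSet ℂ B := by
  rw [spectrum.mem_resolventSet_iff]
  have hd : 0 < ‖d‖ + 1 := by positivity
  refine ContinuousLinearMap.isUnit_of_forall_le_norm_inner_map _
    (c := ⟨c / (‖d‖ + 1), by positivity⟩) (by exact div_pos hc hd) fun x => ?_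
  have h1 := h.coercive x
  rw [norm_inner_symm]
  change ‖x‖ ^ 2 * (c / (‖d‖ + 1)) ≤ _
  rw [← mul_div_assoc, div_le_iff₀ hd]
  nlinarith [norm_nonneg ⟪x, (algebraMap ℂ (H →L[ℂ] H) σ - B) x⟫_ℂ]

omit [CompleteSpace H] in
lemma mul_resolvent {B : H →L[ℂ] H} {σ : ℂ} (h : σ ∈ resolventSet ℂ B) :
    (algebraMap ℂ (H →L[ℂ] H) σ - B) * resolvent B σ = 1 :=
  Ring.mul_inverse_cancel _ h

omit [CompleteSpace H] in
lemma resolvent_mul {B : H →L[ℂ] H} {σ : ℂ} (h : σ ∈ resolventSet ℂ B) :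
    resolvent B σ * (algebraMap ℂ (H →L[ℂ] H) σ - B) = 1 :=
  Ring.inverse_mul_cancel _ h

omit [CompleteSpace H] in
lemma commute_resolvent {B N : H →L[ℂ] H} {σ : ℂ} (h : σ ∈ resolventSet ℂ B)
    (hN : N * B = B * N) : N * resolvent B σ = resolvent B σ * N := by
  set u := algebraMap ℂ (H →L[ℂ] H) σ - B with hu
  have h1 : N * u = u * N := by
    rw [hu, mul_sub, sub_mul, hN, Algebra.commutes]
  have h2 : u * resolvent B σ = 1 := mul_resolvent h
  have h3 : resolvent B σ * u = 1 := resolvent_mul h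
  calc N * resolvent B σ = (resolvent B σ * u) * N * resolvent B σ := by rw [h3, one_mul]
    _ = resolvent B σ * (u * N) * resolvent B σ := by simp only [mul_assoc]
    _ = resolvent B σ * N * (u * resolvent B σ) := by rw [← h1]; simp only [mul_assoc]
    _ = resolvent B σ * N := by rw [h2, mul_one]

lemma Left.norm_resolvent {B : H →L[ℂ] H} {σ d : ℂ} {c : ℝ} (h : Left B σ d c) (hc : 0 < c) :
    ‖resolvent B σ‖ ≤ ‖d‖ / c := by
  refine ContinuousLinearMap.opNorm_le_bound _ (by positivity) fun x => ?_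
  set y := resolvent B σ x with hy
  have h1 : (algebraMap ℂ (H →L[ℂ] H) σ - B) y = x := by
    have := congrArg (fun L : H →L[ℂ] H => L x) (mul_resolvent (h.mem_resolventSet hc))
    simpa using this
  have h2 := h.coercive y
  rw [h1] at h2
  have h3 : ‖⟪y, x⟫_ℂ‖ ≤ ‖y‖ * ‖x‖ := norm_inner_le_norm _ _
  rw [div_mul_eq_mul_div, le_div_iff₀ hc]
  rcases (norm_nonneg y).eq_or_lt with h0 | h0
  · rw [← h0, zero_mul]; positivity
  · have h4 : ‖y‖ * (‖y‖ * c) ≤ ‖y‖ * (‖d‖ * ‖x‖) := by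
      have := mul_le_mul_of_nonneg_left h3 (norm_nonneg d)
      nlinarith
    exact le_of_mul_le_mul_left h4 h0

lemma Left.pos {B : H →L[ℂ] H} {σ d : ℂ} {c : ℝ} (h : Left B σ d c) (hc : 0 < c) (x : H) :
    0 ≤ (⟪x, ((-I * d) • resolvent B σ) x⟫_ℂ).re := by
  set y := resolvent B σ x with hy
  have h1 : (algebraMap ℂ (H →L[ℂ] H) σ - B) y = x := by
    have := congrArg (fun L : H →L[ℂ] H => L x) (mul_resolvent (h.mem_resolventSet hc))
    simpa using this
  have h2 : ⟪x, y⟫_ℂ = conj (σ * ((‖y‖ ^ 2 : ℝ) : ℂ) - ⟪y, B y⟫_ℂ) := by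
    rw [← inner_alg_sub, h1, inner_conj_symm]
  have h3 := h y
  rw [smul_apply, inner_smul_right, ← hy, h2]
  set w := ⟪y, B y⟫_ℂ - σ * ((‖y‖ ^ 2 : ℝ) : ℂ) with hw
  have h4 : σ * ((‖y‖ ^ 2 : ℝ) : ℂ) - ⟪y, B y⟫_ℂ = -w := by rw [hw]; ring
  rw [h4]
  have h5 : (-I * d * conj (-w)).re = (conj d * w).im := by
    simp only [mul_re, mul_im, neg_re, neg_im, conj_re, conj_im, I_re, I_im]
    ring
  rw [h5]
  have : 0 ≤ c * ‖y‖ ^ 2 := by positivity
  linarith

lemma hasDerivAt_line (p d : ℂ) (t : ℝ) : HasDerivAt (fun t : ℝ => p + t * d) d t := by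
  have h := ((hasDerivAt_id t).ofReal_comp.mul_const d).const_add p
  simpa using h

lemma Left.hasDerivAt {B : H →L[ℂ] H} {p d : ℂ} {c : ℝ} (h : Left B p d c) (hc : 0 < c) (t : ℝ) :
    HasDerivAt (fun t : ℝ => resolvent B (p + t * d))
      (d • (-resolvent B (p + t * d) ^ 2)) t := by
  have h1 := spectrum.hasDerivAt_resolvent_const_left ((h.shift t).mem_resolventSet hc)
  exact h1.scomp t (hasDerivAt_line p d t)

lemma Left.continuous {B : H →L[ℂ] H} {p d : ℂ} {c : ℝ} (h : Left B p d c) (hc : 0 < c) :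
    Continuous (fun t : ℝ => resolvent B (p + t * d)) :=
  continuous_iff_continuousAt.mpr fun t => (h.hasDerivAt hc t).continuousAt

omit [CompleteSpace H] in
lemma resolvent_second_order {B B' N : H →L[ℂ] H} {σ δ : ℂ} (h : σ ∈ resolventSet ℂ B)
    (h' : σ ∈ resolventSet ℂ B') (hBB : B = B' + δ • N) (hN : N * B' = B' * N) :
    resolvent B σ - resolvent B' σ - δ • (N * resolvent B' σ ^ 2)
      = δ ^ 2 • (resolvent B' σ * N * resolvent B σ * N * resolvent B' σ) := by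
  set R := resolvent B σ
  set R' := resolvent B' σ
  set u := algebraMap ℂ (H →L[ℂ] H) σ - B with hu
  set u' := algebraMap ℂ (H →L[ℂ] H) σ - B' with hu'
  have e1 : u * R = 1 := mul_resolvent h
  have e2 : R * u = 1 := resolvent_mul h
  have e3 : u' * R' = 1 := mul_resolvent h'
  have e4 : R' * u' = 1 := resolvent_mul h'
  have e5 : u' = u + δ • N := by rw [hu, hu', hBB]; abel
  have e6 : N * R' = R' * N := commute_resolvent h' hN
  have f1 : R = R' + δ • (R * N * R') := by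
    calc R = R * (u' * R') := by rw [e3, mul_one]
      _ = (R * u) * R' + δ • (R * N * R') := by
        rw [e5]; simp only [add_mul, mul_add, mul_assoc, smul_mul_assoc, mul_smul_comm]
      _ = R' + δ • (R * N * R') := by rw [e2, one_mul]
  have f2 : R = R' + δ • (R' * N * R) := by
    calc R = (R' * u') * R := by rw [e4, one_mul]
      _ = R' * (u * R) + δ • (R' * N * R) := by
        rw [e5]; simp only [add_mul, mul_add, mul_assoc, smul_mul_assoc, mul_smul_comm]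
      _ = R' + δ • (R' * N * R) := by rw [e1, mul_one]
  have f3 : R * N * R' = N * R' ^ 2 + δ • (R' * N * R * N * R') := by
    calc R * N * R' = (R' + δ • (R' * N * R)) * N * R' := by rw [← f2]
      _ = R' * N * R' + δ • (R' * N * R * N * R') := by
        simp only [add_mul, smul_mul_assoc]
      _ = N * R' ^ 2 + δ • (R' * N * R * N * R') := by rw [← e6, sq, mul_assoc N]
  calc R - R' - δ • (N * R' ^ 2) = δ • (R * N * R') - δ • (N * R' ^ 2) := by
        nth_rewrite 1 [f1]; abel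
    _ = δ ^ 2 • (R' * N * R * N * R') := by
        rw [f3, smul_add, smul_smul, sq δ]; abel

end Vale.Agent.P123
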