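import Mathlib

/-!
The numerical range and the Toeplitz-Hausdorff theorem.
-/

namespace Vale.Agent.P123

open scoped InnerProductSpace ComplexConjugate
open Complex

variable {H : Type*} [NormedAddCommGroup H] [InnerProductSpace ℂ H]

/-- The numerical range. -/
def nr (A : H →L[ℂ] H) : Set ℂ := {z | ∃ x : H, ‖x‖ = 1 ∧ ⟪x, A x⟫_ℂ = z}

lemma inner_self_cpx (v : H) : ⟪v, v⟫_ℂ = ((‖v‖ ^ 2 : ℝ) : ℂ) := by
  rw [inner_self_eq_norm_sq_to_K]; simp

lemma mem_nr_of_ne_zero (A : H →L[ℂ] H) (v : H) (hv : v ≠ 0) :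
    ⟪v, A v⟫_ℂ / ((‖v‖ ^ 2 : ℝ) : ℂ) ∈ nr A := by
  have hn : 0 < ‖v‖ := norm_pos_iff.mpr hv
  refine ⟨((‖v‖⁻¹ : ℝ) : ℂ) • v, ?_, ?_⟩
  · rw [norm_smul, norm_real, Real.norm_eq_abs, abs_of_pos (inv_pos.mpr hn)]
    field_simp
  · rw [map_smul, inner_smul_left, inner_smul_right, conj_ofReal]
    have : (‖v‖ : ℂ) ≠ 0 := by exact_mod_cast hn.ne'
    push_cast
    field_simp

lemma norm_le_of_mem_nr (A : H →L[ℂ] H) {z : ℂ} (hz : z ∈ nr A) : ‖z‖ ≤ ‖A‖ := by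
  obtain ⟨x, hx, rfl⟩ := hz
  calc ‖⟪x, A x⟫_ℂ‖ ≤ ‖x‖ * ‖A x‖ := norm_inner_le_norm _ _
    _ ≤ ‖x‖ * (‖A‖ * ‖x‖) := by gcongr; exact A.le_opNorm x
    _ = ‖A‖ := by rw [hx]; ring

lemma nr_nonempty [Nontrivial H] (A : H →L[ℂ] H) : (nr A).Nonempty := by
  obtain ⟨v, hv⟩ := exists_ne (0 : H)
  exact ⟨_, mem_nr_of_ne_zero A v hv⟩

theorem convex_nr (A : H →L[ℂ] H) : Convex ℝ (nr A) := by
  rintro α ⟨x, hx, hα⟩ β ⟨y, hy, hβ⟩ a b ha hb hab
  by_cases hαβ : α = β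
  · have : a • α + b • β = α := by
      rw [← hαβ, ← add_smul, hab, one_smul]
    rw [this]
    exact ⟨x, hx, hα⟩
  have hne : α - β ≠ 0 := sub_ne_zero.mpr hαβ
  have hxx : ⟪x, x⟫_ℂ = 1 := by rw [inner_self_cpx, hx]; simp
  have hyy : ⟪y, y⟫_ℂ = 1 := by rw [inner_self_cpx, hy]; simp
  set u : ℂ := (⟪x, A y⟫_ℂ - β * ⟪x, y⟫_ℂ) / (α - β) with hu
  set w : ℂ := (⟪y, A x⟫_ℂ - β * ⟪y, x⟫_ℂ) / (α - β) with hw
  obtain ⟨l, hl1, hl2⟩ := Complex.exists_norm_eq_mul_self (w - conj u)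
  have hll : conj l * l = 1 := by
    rw [conj_mul', hl1]; simp
  set ρ : ℝ := (conj l * u + l * w).re with hρ
  have hreal : conj l * u + l * w = (ρ : ℂ) := by
    apply Complex.ext
    · simp [hρ]
    · have h1 := congrArg Complex.im hl2
      simp only [ofReal_im, mul_im, sub_re, sub_im, conj_re, conj_im] at h1
      simp only [add_im, mul_im, conj_re, conj_im, ofReal_im]
      linarith
  set v : ℝ → H := fun t => ((t : ℂ) * l) • x + ((1 - t : ℝ) : ℂ) • y with hv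
  have hφ : ∀ t : ℝ, ⟪v t, A (v t)⟫_ℂ - β * ⟪v t, v t⟫_ℂ
      = (α - β) * ((t ^ 2 + t * (1 - t) * ρ : ℝ) : ℂ) := by
    intro t
    have h1 : (α - β) * u = ⟪x, A y⟫_ℂ - β * ⟪x, y⟫_ℂ := by rw [hu]; field_simp
    have h2 : (α - β) * w = ⟪y, A x⟫_ℂ - β * ⟪y, x⟫_ℂ := by rw [hw]; field_simp
    simp only [hv, map_add, map_smul, inner_add_left, inner_add_right, inner_smul_left,
      inner_smul_right, hα, hβ, hxx, hyy, map_mul, conj_ofReal]
    push_cast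
    rw [← hreal]
    linear_combination (t : ℂ) ^ 2 * (α - β) * hll - (t * (1 - t) * conj l) * h1
      - (t * (1 - t) * l) * h2
  set g : ℝ → ℝ := fun t => t ^ 2 + t * (1 - t) * ρ - a * ‖v t‖ ^ 2 with hg
  have hgc : Continuous g := by
    simp only [hg, hv]
    fun_prop
  have hg0 : g 0 ≤ 0 := by
    simp [hg, hv, hy, ha]
  have hg1 : 0 ≤ g 1 := by
    simp only [hg, hv]
    simp [norm_smul, hl1, hx]
    linarith
  obtain ⟨t, -, ht⟩ := intermediate_value_Icc (zero_le_one' ℝ) hgc.continuousOn ⟨hg0, hg1⟩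
  have hvt : v t ≠ 0 := by
    intro h0
    have h1 : ((t : ℂ) * l) • x = -(((1 - t : ℝ) : ℂ) • y) := eq_neg_of_add_eq_zero_left h0
    have h2 : ⟪((t : ℂ) * l) • x, A (((t : ℂ) * l) • x)⟫_ℂ
        - β * ⟪((t : ℂ) * l) • x, ((t : ℂ) * l) • x⟫_ℂ = (α - β) * t ^ 2 := by
      simp only [map_smul, inner_smul_left, inner_smul_right, hα, hxx, map_mul, conj_ofReal]
      linear_combination (t : ℂ) ^ 2 * (α - β) * hll
    rw [h1] at h2
    simp only [map_neg, map_smul, inner_neg_left, inner_neg_right, inner_smul_left,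
      inner_smul_right, hβ, hyy] at h2
    have h3 : (α - β) * (t : ℂ) ^ 2 = 0 := by rw [← h2]; ring
    have h4 : (t : ℂ) = 0 := by
      rcases mul_eq_zero.mp h3 with h | h
      · exact absurd h hne
      · exact pow_eq_zero_iff (two_ne_zero) |>.mp h
    have h5 : t = 0 := by exact_mod_cast h4
    rw [h5] at h1
    simp at h1
    rw [h1] at hy
    simp at hy
  have hmem := mem_nr_of_ne_zero A (v t) hvt
  have hn : ((‖v t‖ ^ 2 : ℝ) : ℂ) ≠ 0 := by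
    have : 0 < ‖v t‖ := norm_pos_iff.mpr hvt
    exact_mod_cast (pow_pos this 2).ne'
  have heq : ⟪v t, A (v t)⟫_ℂ / ((‖v t‖ ^ 2 : ℝ) : ℂ) = a • α + b • β := by
    have h1 := hφ t
    have h2 : t ^ 2 + t * (1 - t) * ρ = a * ‖v t‖ ^ 2 := by
      simp only [hg] at ht; linarith
    rw [h2, inner_self_cpx] at h1
    rw [div_eq_iff hn, real_smul, real_smul]
    have hb' : (b : ℂ) = 1 - a := by
      have : b = 1 - a := by linarith
      rw [this]; push_cast; ring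
    rw [hb']
    push_cast at h1 ⊢
    linear_combination h1
  rwa [heq] at hmem

end Vale.Agent.P123
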